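import Crest.Agent.R50.Ind

/-! Linear algebra mod 2 of the frame counts on six colours. -/

namespace Crest.Agent.R50

abbrev S6 := Finset (Fin 6)

/-- Six pairwise distinct elements. -/
def D6 (a b c d e f : Fin 6) : Prop :=
  a ≠ b ∧ a ≠ c ∧ a ≠ d ∧ a ≠ e ∧ a ≠ f ∧ b ≠ c ∧ b ≠ d ∧ b ≠ e ∧ b ≠ f ∧ c ≠ d ∧ c ≠ e ∧ c ≠ f ∧
    d ≠ e ∧ d ≠ f ∧ e ≠ f

theorem D6.all {a b c d e f : Fin 6} (h : D6 a b c d e f) (x : Fin 6) :
    x = a ∨ x = b ∨ x = c ∨ x = d ∨ x = e ∨ x = f := by
  have h1 : ({a, b, c, d, e, f} : S6).card = 6 := by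
    unfold D6 at h
    rw [Finset.card_insert_of_notMem (by grind), Finset.card_insert_of_notMem (by grind),
      Finset.card_insert_of_notMem (by grind), Finset.card_insert_of_notMem (by grind),
      Finset.card_insert_of_notMem (by grind), Finset.card_singleton]
  have h2 := Finset.eq_univ_of_card _ (h1.trans (Fintype.card_fin 6).symm)
  have h3 : x ∈ ({a, b, c, d, e, f} : S6) := h2 ▸ Finset.mem_univ x
  simpa using h3

/-- The two-factor counts. -/
def mm (M : S6 → S6 → S6 → Z2) (A C : S6) : Z2 := ∑ d, M A {d} C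

structure MData (M : S6 → S6 → S6 → Z2) : Prop where
  zero : ∀ A B C : S6, A.Nonempty → B.Nonempty → C.Nonempty →
    (¬ Disjoint A B ∨ ¬ Disjoint A C ∨ ¬ Disjoint B C ∨ 4 ≤ A.card ∨ 4 ≤ B.card ∨ 4 ≤ C.card) →
    M A B C = 0
  rel : ∀ A B C : S6, A.Nonempty → B.Nonempty → C.Nonempty →
    ∑ g ∈ Aᶜ, M (insert g A) B C + ∑ g ∈ Bᶜ, M A (insert g B) C +
      ∑ g ∈ Cᶜ, M A B (insert g C) = 0
  symm : ∀ A C : S6, A.Nonempty → C.Nonempty → mm M A C = mm M C A
  kf : ∀ a b c d e f, D6 a b c d e f → mm M {a, b} {d, e, f} + mm M {a, b, c} {e, f} = 1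

variable {M : S6 → S6 → S6 → Z2}

theorem MData.rel' (h : MData M) (A B C : S6) (g : Fin 6) (hA : A.Nonempty) (hB : B.Nonempty)
    (hC : C.Nonempty) (gA : g ∉ A) (gB : g ∉ B) (gC : g ∉ C)
    (hall : ∀ x, x = g ∨ ((x ∉ A → x ∈ B ∨ x ∈ C) ∧ (x ∉ B → x ∈ A ∨ x ∈ C) ∧
      (x ∉ C → x ∈ A ∨ x ∈ B))) :
    M (insert g A) B C + M A (insert g B) C + M A B (insert g C) = 0 := by
  rw [← h.rel A B C hA hB hC, Finset.sum_eq_single g, Finset.sum_eq_single g,
    Finset.sum_eq_single g]
  · intro x hx hxg
    apply h.zero _ _ _ hA hB (Finset.insert_nonempty _ _)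
    have := hall x
    rw [Finset.mem_compl] at hx
    simp only [Finset.not_disjoint_iff]
    grind
  · simp [gC]
  · intro x hx hxg
    apply h.zero _ _ _ hA (Finset.insert_nonempty _ _) hC
    have := hall x
    rw [Finset.mem_compl] at hx
    simp only [Finset.not_disjoint_iff]
    grind
  · simp [gB]
  · intro x hx hxg
    apply h.zero _ _ _ (Finset.insert_nonempty _ _) hB hC
    have := hall x
    rw [Finset.mem_compl] at hx
    simp only [Finset.not_disjoint_iff]
    grind
  · simp [gA]

theorem MData.mm_eq (h : MData M) (A C : S6) (g : Fin 6) (hA : A.Nonempty)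
    (hC : C.Nonempty) (hall : ∀ x, x = g ∨ x ∈ A ∨ x ∈ C) : mm M A C = M A {g} C := by
  unfold mm
  rw [Finset.sum_eq_single g]
  · intro x _ hxg
    apply h.zero _ _ _ hA (Finset.singleton_nonempty _) hC
    have := hall x
    simp only [Finset.not_disjoint_iff]
    grind
  · simp

theorem card4 {a b c d : Fin 6} (h : a ≠ b ∧ a ≠ c ∧ a ≠ d ∧ b ≠ c ∧ b ≠ d ∧ c ≠ d) :
    4 ≤ ({a, b, c, d} : S6).card := by
  rw [Finset.card_insert_of_notMem (by grind), Finset.card_insert_of_notMem (by grind),
      Finset.card_insert_of_notMem (by grind), Finset.card_singleton]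

theorem MData.r1 (h : MData M) {a b c d e f : Fin 6} (H : D6 a b c d e f) :
    M {a, b, c} {d, f} {e} = mm M {a, b, c} {e, f} := by
  have hall := H.all
  unfold D6 at H
  have h1 := h.rel' {a, b, c} {d} {e} f (by simp) (by simp) (by simp) (by grind) (by grind)
    (by grind) (fun x => by have := hall x; grind)
  rw [h.zero (insert f {a, b, c}) {d} {e} (by simp) (by simp) (by simp)
    (Or.inr (Or.inr (Or.inr (Or.inl (card4 (by grind))))))] at h1
  rw [h.mm_eq {a, b, c} {e, f} d (by simp) (by simp) (fun x => by have := hall x; grind), Finset.pair_comm d f,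
    Finset.pair_comm e f]
  linear_combination h1 - z2_add_self (M {a, b, c} {d} {f, e})

theorem MData.mm_indep (h : MData M) {a b c d e f : Fin 6} (H : D6 a b c d e f) :
    mm M {a, b, c} {e, f} = mm M {a, b, c} {e, d} := by
  rw [← h.r1 H, ← h.r1 (a := a) (b := b) (c := c) (d := f) (e := e) (f := d)
    (by unfold D6 at H ⊢; grind), Finset.pair_comm d f]

/-- The parity attached to a triple. -/
def al (M : S6 → S6 → S6 → Z2) (S : S6) : Z2 := ∑ d ∈ Sᶜ, mm M S (Sᶜ.erase d)

theorem MData.mm_al (h : MData M) {a b c d e f : Fin 6} (H : D6 a b c d e f) :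
    mm M {a, b, c} {e, f} = al M {a, b, c} := by
  have hall := H.all
  have h1 := h.mm_indep H
  have h2 := h.mm_indep (a := a) (b := b) (c := c) (d := d) (e := f) (f := e)
    (by unfold D6 at H ⊢; grind)
  unfold D6 at H
  have hc : ({a, b, c} : S6)ᶜ = {d, e, f} := by
    ext x; have := hall x; rw [Finset.mem_compl]; grind
  unfold al
  rw [hc, Finset.sum_insert (by grind), Finset.sum_insert (by grind), Finset.sum_singleton,
    show ({d, e, f} : S6).erase d = {e, f} by grind,
    show ({d, e, f} : S6).erase e = {f, d} by grind,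
    show ({d, e, f} : S6).erase f = {e, d} by grind, ← h1, ← h2, Finset.pair_comm f e]
  linear_combination -z2_add_self (mm M {a, b, c} {e, f})

theorem MData.mm_al' (h : MData M) {a b c d e f : Fin 6} (H : D6 a b c d e f) :
    mm M {e, f} {a, b, c} = al M {a, b, c} := by
  rw [h.symm _ _ (by simp) (by simp), h.mm_al H]

theorem MData.al_compl (h : MData M) {a b c d e f : Fin 6} (H : D6 a b c d e f) :
    al M {a, b, c} + al M {d, e, f} = 1 := by
  have h1 := h.kf a b c d e f H
  rw [h.mm_al H, h.mm_al' (d := c) (by unfold D6 at H ⊢; grind)] at h1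
  rw [add_comm, h1]

theorem MData.r2 (h : MData M) {a b c d e f : Fin 6} (H : D6 a b c d e f) :
    M {a, b} {c, f} {d, e} = al M {a, b, f} + al M {d, e, f} := by
  have hall := H.all
  have h2 := h.mm_al (a := a) (b := b) (c := f) (d := c) (e := d) (f := e)
    (by unfold D6 at H ⊢; grind)
  have h3 := h.mm_al' (a := d) (b := e) (c := f) (d := c) (e := a) (f := b)
    (by unfold D6 at H ⊢; grind)
  unfold D6 at H
  have h1 := h.rel' {a, b} {c} {d, e} f (by simp) (by simp) (by simp) (by grind) (by grind)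
    (by grind) (fun x => by have := hall x; grind)
  rw [h.mm_eq _ _ c (by simp) (by simp) (fun x => by have := hall x; grind)] at h2 h3
  rw [show (insert f {a, b} : S6) = {a, b, f} by grind, show (insert f {d, e} : S6) = {d, e, f} by
    grind, h2, h3, Finset.pair_comm f c] at h1
  linear_combination h1 - z2_add_self (al M {a, b, f}) - z2_add_self (al M {d, e, f})

theorem MData.r1' (h : MData M) {a b c d e f : Fin 6} (H : D6 a b c d e f) :
    M {a} {c, f} {b, d, e} = al M {b, d, e} := by
  have hall := H.all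
  have h3 := h.mm_al' (a := b) (b := d) (c := e) (d := c) (e := f) (f := a)
    (by unfold D6 at H ⊢; grind)
  unfold D6 at H
  have h1 := h.rel' {a} {c} {b, d, e} f (by simp) (by simp) (by simp) (by grind) (by grind)
    (by grind) (fun x => by have := hall x; grind)
  rw [h.zero {a} {c} (insert f {b, d, e}) (by simp) (by simp) (by simp)
    (Or.inr (Or.inr (Or.inr (Or.inr (Or.inr (card4 (by grind)))))))] at h1
  rw [h.mm_eq _ _ c (by simp) (by simp) (fun x => by have := hall x; grind)] at h3
  rw [h3, Finset.pair_comm f c] at h1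
  linear_combination h1 - z2_add_self (al M {b, d, e})

theorem MData.star (h : MData M) {a b c d e f : Fin 6} (H : D6 a b c d e f) :
    al M {a, b, e} + al M {a, b, f} + al M {a, b, c} =
      al M {b, d, c} + al M {b, d, f} + al M {b, d, e} := by
  have hall := H.all
  have q1 := h.r2 H
  have q2 := h.r2 (a := a) (b := e) (c := c) (d := b) (e := d) (f := f)
    (by unfold D6 at H ⊢; grind)
  have q3 := h.r1 (a := a) (b := b) (c := e) (d := c) (e := d) (f := f)
    (by unfold D6 at H ⊢; grind)
  rw [h.mm_al (d := c) (by unfold D6 at H ⊢; grind)] at q3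
  have q4 := h.r1' H
  have c1 := h.al_compl H
  have c2 := h.al_compl (a := a) (b := e) (c := f) (d := b) (e := d) (f := c)
    (by unfold D6 at H ⊢; grind)
  unfold D6 at H
  have h3 := h.rel' {a, b} {c, f} {d} e (by simp) (by simp) (by simp) (by grind) (by grind)
    (by grind) (fun x => by have := hall x; grind)
  have h4 := h.rel' {a} {e, c, f} {d} b (by simp) (by simp) (by simp) (by grind) (by grind)
    (by grind) (fun x => by have := hall x; grind)
  have h5 := h.rel' {a} {c, f} {b, d} e (by simp) (by simp) (by simp) (by grind) (by grind)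
    (by grind) (fun x => by have := hall x; grind)
  rw [h.zero {a} (insert b {e, c, f}) {d} (by simp) (by simp) (by simp)
    (Or.inr (Or.inr (Or.inr (Or.inr (Or.inl (card4 (by grind))))))), Finset.pair_comm b a] at h4
  rw [show (insert e {a, b} : S6) = {a, b, e} by grind, Finset.pair_comm e d, q1, q3] at h3
  rw [show (insert e {b, d} : S6) = {b, d, e} by grind, Finset.pair_comm e a, q2, q4] at h5
  have two : (2 : Z2) = 0 := rfl
  linear_combination h3 + h4 + h5 + c1 + c2 +
    (1 - M {a, b} {e, c, f} {d} - M {a} {e, c, f} {b, d} - al M {d, e, f} - al M {a, e, f}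
      - al M {b, d, c} - al M {b, d, f} - al M {b, d, e}) * two

theorem MData.evlink (h : MData M) {a b c d e f : Fin 6} (H : D6 a b c d e f) :
    al M {a, b, c} + al M {a, b, d} + al M {a, b, e} + al M {a, b, f} = 0 := by
  have s0 := h.star (a := e) (b := b) (c := a) (d := f) (e := c) (f := d)
    (by unfold D6 at H ⊢; grind)
  rw [show ({e, b, c} : S6) = {b, c, e} by grind,
    show ({e, b, d} : S6) = {b, d, e} by grind,
    show ({e, b, a} : S6) = {a, b, e} by grind,
    show ({b, f, a} : S6) = {a, b, f} by grind,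
    show ({b, f, d} : S6) = {b, d, f} by grind,
    show ({b, f, c} : S6) = {b, c, f} by grind] at s0
  have s1 := h.star (a := c) (b := b) (c := a) (d := d) (e := e) (f := f)
    (by unfold D6 at H ⊢; grind)
  rw [show ({c, b, e} : S6) = {b, c, e} by grind,
    show ({c, b, f} : S6) = {b, c, f} by grind,
    show ({c, b, a} : S6) = {a, b, c} by grind,
    show ({b, d, a} : S6) = {a, b, d} by grind] at s1
  have two : (2 : Z2) = 0 := rfl
  linear_combination s0 + s1 + (al M {a, b, d} + al M {a, b, f} + al M {b, d, f} - al M {b, c, e})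
    * two

theorem MData.par4 (h : MData M) {a b c d e f : Fin 6} (H : D6 a b c d e f) :
    al M {a, b, c} + al M {a, b, d} + al M {a, c, d} + al M {b, c, d} = 0 := by
  have s0 := h.evlink (a := e) (b := f) (c := a) (d := b) (e := c) (f := d)
    (by unfold D6 at H ⊢; grind)
  have s1 := h.al_compl (a := e) (b := f) (c := a) (d := b) (e := c) (f := d)
    (by unfold D6 at H ⊢; grind)
  have s2 := h.al_compl (a := e) (b := f) (c := b) (d := a) (e := c) (f := d)
    (by unfold D6 at H ⊢; grind)
  have s3 := h.al_compl (a := e) (b := f) (c := c) (d := a) (e := b) (f := d)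
    (by unfold D6 at H ⊢; grind)
  have s4 := h.al_compl (a := e) (b := f) (c := d) (d := a) (e := b) (f := c)
    (by unfold D6 at H ⊢; grind)
  have two : (2 : Z2) = 0 := rfl
  linear_combination s1 + s2 + s3 + s4 - s0 + 2 * two

theorem exists_D6_of_four {a b c d : Fin 6}
    (h : a ≠ b ∧ a ≠ c ∧ a ≠ d ∧ b ≠ c ∧ b ≠ d ∧ c ≠ d) : ∃ e f, D6 a b c d e f := by
  revert a b c d
  unfold D6
  decide +kernel

theorem exists_D6_of_three {a b c : Fin 6} (h : a ≠ b ∧ a ≠ c ∧ b ≠ c) :
    ∃ d e f, D6 a b c d e f := by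
  have h1 : ∀ a b c : Fin 6, ∃ d, a ≠ d ∧ b ≠ d ∧ c ≠ d := by decide +kernel
  obtain ⟨d, hd⟩ := h1 a b c
  obtain ⟨e, f, H⟩ := exists_D6_of_four (a := a) (b := b) (c := c) (d := d) (by grind)
  exact ⟨d, e, f, H⟩

/-- A 1-cochain whose coboundary is the indicator of the non-faces. -/
def ph (M : S6 → S6 → S6 → Z2) (x y : Fin 6) : Z2 :=
  if x = 0 ∨ y = 0 ∨ x = y then 0 else 1 + al M {0, x, y}

theorem ph_self (x : Fin 6) : ph M x x = 0 := by simp [ph]

theorem ph_comm (x y : Fin 6) : ph M x y = ph M y x := by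
  unfold ph
  rw [Finset.pair_comm x y]
  congr 1
  apply propext
  grind

theorem MData.ph_three (h : MData M) {a b c : Fin 6} (H : a ≠ b ∧ a ≠ c ∧ b ≠ c) :
    ph M b c + ph M a c + ph M a b = 1 + al M {a, b, c} := by
  by_cases ha : a = 0
  · subst ha
    have hb : b ≠ 0 := H.1.symm
    have hc : c ≠ 0 := H.2.1.symm
    simp [ph, hb, hc, H.2.2]
  by_cases hb : b = 0
  · subst hb
    have hc : c ≠ 0 := H.2.2.symm
    rw [show ({a, 0, c} : S6) = {0, a, c} by grind]
    simp [ph, ha, hc, H.2.1]
  by_cases hc : c = 0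
  · subst hc
    rw [show ({a, b, 0} : S6) = {0, a, b} by grind]
    simp [ph, ha, hb, H.1]
  obtain ⟨e, f, H6⟩ := exists_D6_of_four (a := 0) (b := a) (c := b) (d := c) (by grind)
  have := h.par4 H6
  have two : (2 : Z2) = 0 := rfl
  simp only [ph, ha, hb, hc, H.1, H.2.1, H.2.2, or_self, if_false]
  linear_combination this + (1 - al M {a, b, c}) * two

end Crest.Agent.R50
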