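import Mathlib

/-! Mod-2 cochains on lists of vertices, and chains as additive functionals on cochains. -/

namespace Crest.Agent.R50

abbrev Z2 := ZMod 2

theorem z2_add_self (x : Z2) : x + x = 0 := by
  revert x; decide

abbrev Co (V : Type*) := List V → Z2

variable {V W : Type*}

/-- The (augmented) coboundary: the sum of the values on all one-vertex deletions. -/
def dl : Co V → List V → Z2
  | _, [] => 0
  | φ, v :: t => φ t + dl (fun x => φ (v :: x)) t

@[simp] theorem dl_nil (φ : Co V) : dl φ [] = 0 := rfl

theorem dl_cons (φ : Co V) (v : V) (t : List V) :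
    dl φ (v :: t) = φ t + dl (fun x => φ (v :: x)) t := rfl

theorem dl_add (φ ψ : Co V) (l : List V) :
    dl (fun x => φ x + ψ x) l = dl φ l + dl ψ l := by
  induction l generalizing φ ψ with
  | nil => simp
  | cons v t ih => simp only [dl_cons]; rw [ih]; ring

theorem dl_mul_left (c : Z2) (φ : Co V) (l : List V) :
    dl (fun x => c * φ x) l = c * dl φ l := by
  induction l generalizing φ with
  | nil => simp
  | cons v t ih => simp only [dl_cons]; rw [ih]; ring

theorem dl_mul_right (c : Z2) (φ : Co V) (l : List V) :
    dl (fun x => φ x * c) l = dl φ l * c := by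
  have := dl_mul_left c φ l
  simpa [mul_comm] using this

@[simp] theorem dl_zero (l : List V) : dl (fun _ => (0 : Z2)) l = 0 := by
  have := dl_mul_left 0 (fun _ => (0 : Z2)) l
  simpa using this

theorem dl_map (f : V → W) (φ : Co W) (l : List V) :
    dl (fun x => φ (x.map f)) l = dl φ (l.map f) := by
  induction l generalizing φ with
  | nil => simp
  | cons v t ih =>
    simp only [dl_cons, List.map_cons]
    rw [← ih (fun x => φ (f v :: x))]

theorem dl_congr {φ ψ : Co V} {l : List V}
    (h : ∀ x, x.Sublist l → x.length + 1 = l.length → φ x = ψ x) : dl φ l = dl ψ l := by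
  induction l generalizing φ ψ with
  | nil => simp
  | cons v t ih =>
    simp only [dl_cons]
    rw [h t (List.sublist_cons_self v t) (by simp), ih]
    intro x hx hl
    exact h _ (hx.cons_cons v) (by simp [hl])

theorem dl_multiset [DecidableEq V] (Φ : Multiset V → Z2) (l : List V) :
    dl (fun x => Φ (x : Multiset V)) l =
      ((l : Multiset V).map (fun a => Φ ((l : Multiset V).erase a))).sum := by
  induction l generalizing Φ with
  | nil => simp
  | cons v t ih =>
    rw [dl_cons]
    have h1 := ih (fun m => Φ (v ::ₘ m))
    simp only [← Multiset.cons_coe] at h1 ⊢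
    rw [h1, Multiset.map_cons, Multiset.sum_cons, Multiset.erase_cons_head]
    congr 2
    apply Multiset.map_congr rfl
    intro a ha
    by_cases hav : a = v
    · subst hav
      rw [Multiset.erase_cons_head, Multiset.cons_erase ha]
    · rw [Multiset.erase_cons_tail _ (Ne.symm hav)]

/-- The prism operator between two vertex maps. -/
def prism (f g : V → W) : Co W → List V → Z2
  | _, [] => 0
  | φ, v :: t => φ (f v :: g v :: t.map g) + prism f g (fun x => φ (f v :: x)) t

theorem prism_add (f g : V → W) (φ ψ : Co W) (l : List V) :
    prism f g (fun x => φ x + ψ x) l = prism f g φ l + prism f g ψ l := by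
  induction l generalizing φ ψ with
  | nil => simp [prism]
  | cons v t ih => simp only [prism]; rw [ih]; ring

theorem dl_prism (f g : V → W) (φ : Co W) (l : List V) :
    dl (prism f g φ) l + prism f g (dl φ) l = φ (l.map f) + φ (l.map g) := by
  induction l generalizing φ with
  | nil => simp [prism, z2_add_self]
  | cons v t ih =>
    have h1 : (fun x => prism f g φ (v :: x)) = fun x =>
        φ (f v :: g v :: x.map g) + prism f g (fun y => φ (f v :: y)) x := rfl
    have h2 : (fun x => dl φ (f v :: x)) = fun x => φ x + dl (fun y => φ (f v :: y)) x := rfl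
    rw [dl_cons, h1, dl_add, dl_map g (fun y => φ (f v :: g v :: y))]
    simp only [prism]
    rw [h2, prism_add, dl_cons, dl_cons]
    have h3 := ih (fun y => φ (f v :: y))
    simp only [List.map_cons]
    have e1 := z2_add_self (prism f g φ t)
    have e2 := z2_add_self (dl (fun y => φ (f v :: g v :: y)) (t.map g))
    have e3 := z2_add_self (φ (f v :: t.map g))
    linear_combination h3 + e1 + e2 + e3

theorem prism_eq_zero (f g : V → W) (φ : Co W) (l : List V)
    (h : ∀ x : List W, x.length = l.length + 1 → (∀ w ∈ x, ∃ v ∈ l, w = f v ∨ w = g v) →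
      φ x = 0) : prism f g φ l = 0 := by
  induction l generalizing φ with
  | nil => rfl
  | cons v t ih =>
    simp only [prism]
    rw [h, ih, add_zero]
    · intro x hx hm
      apply h
      · simp [hx]
      · intro w hw
        rcases List.mem_cons.1 hw with rfl | hw
        · exact ⟨v, by simp, Or.inl rfl⟩
        · obtain ⟨a, ha, h'⟩ := hm w hw
          exact ⟨a, by simp [ha], h'⟩
    · simp
    · intro w hw
      simp only [List.mem_cons, List.mem_map] at hw
      rcases hw with rfl | rfl | ⟨a, ha, rfl⟩
      · exact ⟨v, by simp, Or.inl rfl⟩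
      · exact ⟨v, by simp, Or.inr rfl⟩
      · exact ⟨a, by simp [ha], Or.inr rfl⟩

/-- The product of a cochain on the `p`-part and a cochain on the non-`p`-part of a list. -/
def box (p : V → Bool) (α β : Co V) : Co V :=
  fun l => α (l.filter p) * β (l.filter (fun v => !p v))

theorem dl_box (p : V → Bool) (α β : Co V) (l : List V) :
    dl (box p α β) l = box p (dl α) β l + box p α (dl β) l := by
  induction l generalizing α β with
  | nil => simp [box]
  | cons v t ih =>
    rw [dl_cons]
    cases hv : p v
    · have h1 : (fun x => box p α β (v :: x)) = box p α (fun y => β (v :: y)) := by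
        funext x; simp [box, hv]
      rw [h1, ih]
      simp only [box, List.filter_cons, hv, Bool.not_false, if_true, Bool.false_eq_true, if_false,
        dl_cons]
      ring
    · have h1 : (fun x => box p α β (v :: x)) = box p (fun y => α (v :: y)) β := by
        funext x; simp [box, hv]
      rw [h1, ih]
      simp only [box, List.filter_cons, hv, Bool.not_true, if_true, Bool.false_eq_true, if_false,
        dl_cons]
      ring

/-- The cup product. -/
def cup : Co V → Co V → List V → Z2
  | _, _, [] => 0
  | β, γ, v :: t => β [v] * γ (v :: t) + cup (fun x => β (v :: x)) γ t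

theorem cup_add_left (β β' γ : Co V) (l : List V) :
    cup (fun x => β x + β' x) γ l = cup β γ l + cup β' γ l := by
  induction l generalizing β β' with
  | nil => simp [cup]
  | cons v t ih => simp only [cup]; rw [ih]; ring

theorem dl_cup (β γ : Co V) (l : List V) :
    dl (cup β γ) l = cup (dl β) γ l + cup β (dl γ) l + β [] * γ l + β l * γ [] := by
  induction l generalizing β with
  | nil => simp [cup, z2_add_self]
  | cons v t ih =>
    have h1 : (fun x => cup β γ (v :: x)) = fun x =>
        β [v] * γ (v :: x) + cup (fun y => β (v :: y)) γ x := rfl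
    have h2 : (fun x => dl β (v :: x)) = fun x => β x + dl (fun y => β (v :: y)) x := rfl
    rw [dl_cons, h1, dl_add, dl_mul_left, ih]
    simp only [cup]
    rw [h2, cup_add_left, dl_cons, dl_cons]
    simp only [dl_nil, add_zero]
    have e1 := z2_add_self (β [] * γ (v :: t))
    linear_combination -e1

theorem cup_congr {β β' γ γ' : Co V} {l : List V}
    (h : ∀ x y : List V, x ≠ [] → y ≠ [] → x.Sublist l → y.Sublist l →
      x.length + y.length = l.length + 1 → β x * γ y = β' x * γ' y) :
    cup β γ l = cup β' γ' l := by
  induction l generalizing β β' with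
  | nil => rfl
  | cons v t ih =>
    simp only [cup]
    rw [h [v] (v :: t) (by simp) (by simp) (by simp) (List.Sublist.refl _) (by simp; omega), ih]
    intro x y hx hy hxt hyt hl
    exact h _ _ (by simp) hy (hxt.cons_cons v) (hyt.cons v) (by simp; omega)

theorem cup_zero_left (γ : Co V) (l : List V) : cup (fun _ => 0) γ l = 0 := by
  induction l with
  | nil => rfl
  | cons v t ih => simp only [cup]; rw [ih]; simp

/-- A chain: an additive functional on cochains. -/
abbrev Ch (V : Type*) := Co V →+ Z2

/-- The chain only sees lists with the property `P`. -/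
def Supp (I : Ch V) (P : List V → Prop) : Prop := ∀ φ : Co V, (∀ l, P l → φ l = 0) → I φ = 0

theorem Supp.congr {I : Ch V} {P : List V → Prop} (h : Supp I P) {φ ψ : Co V}
    (e : ∀ l, P l → φ l = ψ l) : I φ = I ψ := by
  have := h (φ - ψ) (fun l hl => by simp [e l hl])
  rwa [map_sub, sub_eq_zero] at this

theorem Supp.mono {I : Ch V} {P Q : List V → Prop} (h : Supp I P) (e : ∀ l, P l → Q l) :
    Supp I Q := fun φ hφ => h φ (fun l hl => hφ l (e l hl))

theorem Supp.exists {I : Ch V} {P : List V → Prop} (h : Supp I P) {φ : Co V} (e : I φ ≠ 0) :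
    ∃ l, P l ∧ φ l ≠ 0 := by
  by_contra hc
  push Not at hc
  exact e (h φ hc)

theorem ch_add (I : Ch V) (φ ψ : Co V) : I (fun x => φ x + ψ x) = I φ + I ψ :=
  I.map_add φ ψ

/-- Telescoped homotopy: a cycle takes the same value on the pull-backs of a cochain under the two
ends of a chain of maps, up to prisms of the coboundary. -/
theorem cycle_telescope (I : Ch V) (hI : ∀ φ, I (dl φ) = 0) (f : ℕ → V → W) (φ : Co W) (N : ℕ) :
    I (fun l => φ (l.map (f 0))) + I (fun l => φ (l.map (f N))) =
      ∑ j ∈ Finset.range N, I (prism (f j) (f (j + 1)) (dl φ)) := by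
  induction N with
  | zero => simp [z2_add_self]
  | succ n ih =>
    rw [Finset.sum_range_succ, ← ih]
    have h1 : I (fun l => φ (l.map (f n))) + I (fun l => φ (l.map (f (n + 1)))) =
        I (prism (f n) (f (n + 1)) (dl φ)) := by
      rw [← ch_add, ← zero_add (I (prism _ _ _)), ← hI (prism (f n) (f (n + 1)) φ), ← ch_add]
      congr 1
      funext l
      exact (dl_prism _ _ _ _).symm
    have e := z2_add_self (I (fun l => φ (l.map (f n))))
    linear_combination h1 - e

end Crest.Agent.R50
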