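import Crest.Agent.R50.Hemi

/-! The Ky Fan parity lemma for fine antipodal cycles. -/

namespace Crest.Agent.R50

/-- Indicator of alternating sign lists starting with `b`. -/
def alt : Bool → List Bool → Z2
  | _, [] => 1
  | b, x :: t => if x = b then alt (!b) t else 0

theorem dl_alt (b : Bool) (s : List Bool) (hs : s ≠ []) :
    dl (alt b) s = alt b s + alt (!b) s := by
  induction s generalizing b with
  | nil => exact absurd rfl hs
  | cons x t ih =>
    rw [dl_cons]
    by_cases ht : t = []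
    · subst ht
      cases x <;> cases b <;> simp [alt]
    · by_cases hx : x = b
      · subst hx
        have h1 : (fun y => alt x (x :: y)) = alt (!x) := by
          funext y; simp [alt]
        rw [h1, ih _ ht]
        have e := z2_add_self (alt x t)
        simp only [alt, if_true, Bool.not_not, Bool.eq_not_self, if_false]
        linear_combination e
      · have h1 : (fun y => alt b (x :: y)) = fun _ => 0 := by
          funext y; simp [alt, hx]
        rw [h1, dl_zero]
        have hx' : x = !b := by cases x <;> cases b <;> simp_all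
        simp [alt, hx']

theorem alt_map_not (b : Bool) (s : List Bool) : alt b (s.map (fun x => !x)) = alt (!b) s := by
  induction s generalizing b with
  | nil => rfl
  | cons x t ih =>
    simp only [List.map_cons, alt, ih]
    cases x <;> cases b <;> simp

variable {κ : Type*} [LinearOrder κ]

/-- The alternation indicator of a multiset of signed labels. -/
def alpha (b : Bool) (m : Multiset (κ ×ₗ Bool)) : Z2 :=
  alt b ((m.sort (· ≤ ·)).map (fun x => (ofLex x).2))

theorem alpha_coe (b : Bool) (S : List (κ ×ₗ Bool)) (hS : S.Pairwise (· ≤ ·)) :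
    alpha b (S : Multiset (κ ×ₗ Bool)) = alt b (S.map (fun x => (ofLex x).2)) := by
  unfold alpha
  rw [Multiset.coe_sort, List.mergeSort_eq_self _ hS]

theorem dl_alpha (b : Bool) (L : List (κ ×ₗ Bool)) (hL : L ≠ []) :
    dl (fun x => alpha b (x : Multiset (κ ×ₗ Bool))) L = alpha b (Multiset.ofList L) + alpha (!b) (Multiset.ofList L) := by
  set S := (L : Multiset (κ ×ₗ Bool)).sort (· ≤ ·) with hSdef
  have hS : (S : Multiset (κ ×ₗ Bool)) = L := Multiset.sort_eq _ _
  have hSp : S.Pairwise (· ≤ ·) := Multiset.pairwise_sort _ _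
  have hSne : S ≠ [] := by
    intro h
    rw [h] at hS
    exact hL (by simpa using hS.symm)
  rw [dl_multiset, ← hS, ← dl_multiset, alpha_coe _ _ hSp, alpha_coe _ _ hSp,
    ← dl_alt _ _ (by simpa using hSne), ← dl_map]
  apply dl_congr
  intro x hx _
  exact alpha_coe _ _ (hSp.sublist hx)

/-- Flip the sign of a label. -/
def flipL (x : κ ×ₗ Bool) : κ ×ₗ Bool := toLex ((ofLex x).1, !(ofLex x).2)

theorem alpha_flip (b : Bool) (L : List (κ ×ₗ Bool))
    (hL : ∀ x ∈ L, ∀ y ∈ L, (ofLex x).1 = (ofLex y).1 → x = y) :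
    alpha b (Multiset.ofList (L.map flipL)) = alpha (!b) (Multiset.ofList L) := by
  unfold alpha
  rw [← Multiset.map_coe, ← Multiset.map_sort flipL (L : Multiset (κ ×ₗ Bool)) (· ≤ ·) (· ≤ ·),
    List.map_map,
    ← alt_map_not, List.map_map]
  · rfl
  · intro x hx y hy
    have h1 := hL x (by simpa using hx) y (by simpa using hy)
    rcases lt_trichotomy (ofLex x).1 (ofLex y).1 with h | h | h
    · exact iff_of_true (Prod.Lex.le_iff.2 (Or.inl h)) (Prod.Lex.le_iff.2 (Or.inl h))
    · rw [h1 h]; simp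
    · refine iff_of_false (not_le.2 (Prod.Lex.lt_iff.2 (Or.inl h)))
        (not_le.2 (Prod.Lex.lt_iff.2 (Or.inl h)))

theorem pairwise_key_of_alt (b : Bool) (S : List (κ ×ₗ Bool)) (hS : S.Pairwise (· ≤ ·))
    (hL : ∀ x ∈ S, ∀ y ∈ S, (ofLex x).1 = (ofLex y).1 → x = y)
    (h : alt b (S.map (fun x => (ofLex x).2)) ≠ 0) :
    S.Pairwise (fun x y => (ofLex x).1 < (ofLex y).1) := by
  induction S generalizing b with
  | nil => simp
  | cons x t ih =>
    rw [List.pairwise_cons] at hS ⊢
    simp only [List.map_cons, alt] at h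
    have hx : (ofLex x).2 = b := by by_contra hc; simp [hc] at h
    rw [if_pos hx] at h
    have ht := ih (!b) hS.2 (fun a ha c hc => hL a (by simp [ha]) c (by simp [hc])) h
    refine ⟨?_, ht⟩
    cases t with
    | nil => simp
    | cons y t' =>
      have hy : (ofLex y).2 = !b := by
        simp only [List.map_cons, alt] at h
        by_contra hc; simp [hc] at h
      have hxy : (ofLex x).1 < (ofLex y).1 := by
        rcases Prod.Lex.le_iff.1 (hS.1 y (by simp)) with h' | h'
        · exact h'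
        · have := hL x (by simp) y (by simp) h'.1
          rw [this, hy] at hx
          simp at hx
      intro a ha
      rcases List.mem_cons.1 ha with rfl | ha
      · exact hxy
      · exact hxy.trans ((List.pairwise_cons.1 ht).1 a ha)

theorem exists_of_alpha (L : List (κ ×ₗ Bool))
    (hL : ∀ x ∈ L, ∀ y ∈ L, (ofLex x).1 = (ofLex y).1 → x = y) (h : alpha true (Multiset.ofList L) ≠ 0) :
    ∃ S : List (κ ×ₗ Bool), (S : Multiset (κ ×ₗ Bool)) = L ∧
      S.Pairwise (fun x y => (ofLex x).1 < (ofLex y).1) ∧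
      alt true (S.map (fun x => (ofLex x).2)) ≠ 0 := by
  unfold alpha at h
  refine ⟨_, Multiset.sort_eq _ _, ?_, h⟩
  have hp : ((L : Multiset (κ ×ₗ Bool)).sort (· ≤ ·)).Pairwise (· ≤ ·) :=
    Multiset.pairwise_sort (L : Multiset (κ ×ₗ Bool)) (· ≤ ·)
  refine pairwise_key_of_alt true _ hp ?_ h
  intro x hx y hy
  exact hL x (by simpa using hx) y (by simpa using hy)

variable {E : Type*} [NormedAddCommGroup E] [InnerProductSpace ℝ E]

open scoped RealInnerProductSpace

/-- Ky Fan parity: a fine antipodal cycle on which every admissible antipodal labelling has an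
odd number of positively alternating top simplices. -/
theorem kyfan (n : ℕ) (e : ℕ → E)
    (he : ∀ i ≤ n, ∀ j ≤ n, ⟪e i, e j⟫ = if i = j then (1 : ℝ) else 0) (η : ℝ) (hη : 0 < η) :
    ∃ z : Ch E, Supp z (fun l => l.length = n + 1 ∧ Fine n η l) ∧ (∀ φ, z (dl φ) = 0) ∧
      (∀ φ : Co E, z (fun l => φ (l.map (fun v => -v))) = z φ) ∧
      ∀ (κ : Type) [LinearOrder κ] (Λ : E → κ ×ₗ Bool),
        (∀ l, Fine n η l → (∀ v ∈ l, Λ (-v) = flipL (Λ v)) ∧
          ∀ v ∈ l, ∀ w ∈ l, (ofLex (Λ v)).1 = (ofLex (Λ w)).1 → Λ v = Λ w) →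
        z (fun l => alpha true (Multiset.ofList (l.map Λ))) = 1 := by
  obtain ⟨z, h1, h2, h3, h4⟩ := hemi n e he η hη
  refine ⟨z, h1, h2, h3, ?_⟩
  intro κ _ Λ hΛ
  apply h4
  · simp [alpha, alt]
  · intro l hl
    obtain ⟨a, b⟩ := hΛ l hl
    rw [dl_map Λ (fun x => alpha true (x : Multiset (κ ×ₗ Bool))),
      dl_alpha _ _ (by simpa using hl.1)]
    have h5 : (l.map (fun v => -v)).map Λ = (l.map Λ).map flipL := by
      rw [List.map_map, List.map_map]
      exact List.map_congr_left (fun v hv => a v hv)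
    rw [h5, alpha_flip]
    intro x hx y hy
    obtain ⟨v, hv, rfl⟩ := List.mem_map.1 hx
    obtain ⟨w, hw, rfl⟩ := List.mem_map.1 hy
    exact b v hv w hw

/-- Ky Fan's lemma, existence form: some fine list carries `n + 1` distinct keys. -/
theorem kyfan_exists (n : ℕ) (e : ℕ → E)
    (he : ∀ i ≤ n, ∀ j ≤ n, ⟪e i, e j⟫ = if i = j then (1 : ℝ) else 0) (η : ℝ) (hη : 0 < η)
    (κ : Type) [LinearOrder κ] (Λ : E → κ ×ₗ Bool)
    (hΛ : ∀ l, Fine n η l → (∀ v ∈ l, Λ (-v) = flipL (Λ v)) ∧
          ∀ v ∈ l, ∀ w ∈ l, (ofLex (Λ v)).1 = (ofLex (Λ w)).1 → Λ v = Λ w) :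
    ∃ l : List E, Fine n η l ∧
      (l.map (fun v => (ofLex (Λ v)).1)).toFinset.card = n + 1 := by
  obtain ⟨z, h1, -, -, h4⟩ := kyfan n e he η hη
  have h5 := h4 κ Λ hΛ
  obtain ⟨l, ⟨hl, hf⟩, hne⟩ := h1.exists (φ := fun l => alpha true (Multiset.ofList (l.map Λ)))
    (by rw [h5]; exact one_ne_zero)
  refine ⟨l, hf, ?_⟩
  obtain ⟨S, hS1, hS2, -⟩ := exists_of_alpha (l.map Λ) (by
    intro x hx y hy
    obtain ⟨v, hv, rfl⟩ := List.mem_map.1 hx
    obtain ⟨w, hw, rfl⟩ := List.mem_map.1 hy
    exact (hΛ l hf).2 v hv w hw) hne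
  have hperm : S.Perm (l.map Λ) := Multiset.coe_eq_coe.1 hS1
  have hnd : (S.map (fun x => (ofLex x).1)).Nodup := by
    rw [List.Nodup, List.pairwise_map]
    exact hS2.imp (fun h => ne_of_lt h)
  have hnd' : (l.map (fun v => (ofLex (Λ v)).1)).Nodup := by
    have := (hperm.map (fun x => (ofLex x).1)).nodup_iff.1 hnd
    rwa [List.map_map] at this
  rw [List.toFinset_card_of_nodup hnd', List.length_map, hl]

end Crest.Agent.R50
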