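import Crest.Agent.R50.Alg
import Crest.Agent.R50.KyFan

/-! From a fine antipodal cycle with frame labels to the frame counts. -/

namespace Crest.Agent.R50

def g1 (x : Fin 6) : Fin 6 ×ₗ Bool := toLex (x, decide (x.val % 2 = 0))
def g0 (x : Fin 6) : Fin 6 ×ₗ Bool := toLex (x, !decide (x.val % 2 = 0))

theorem five_lists : ∀ a b : Fin 6 × Bool, a.1 < b.1 → ∀ c : Fin 6 × Bool, b.1 < c.1 →
    ∀ d : Fin 6 × Bool, c.1 < d.1 → ∀ e : Fin 6 × Bool, d.1 < e.1 →
    alt true [a.2, b.2, c.2, d.2, e.2] ≠ 0 →
    let A := ([a, b, c, d, e].filter (fun x => x.2 == decide (x.1.val % 2 = 0))).map Prod.fst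
    let B := ([a, b, c, d, e].filter (fun x => !(x.2 == decide (x.1.val % 2 = 0)))).map Prod.fst
    (A = [0, 1] ∧ B = [3, 4, 5]) ∨ (A = [0, 1, 2] ∧ B = [4, 5]) ∨ 4 ≤ A.toFinset.card ∨
      4 ≤ B.toFinset.card := by
  decide +kernel

theorem alpha_split (A B : List (Fin 6)) (hlen : A.length + B.length = 5)
    (hd : ∀ x ∈ A, ∀ y ∈ B, x ≠ y) (hA : A.toFinset.card ≤ 3) (hB : B.toFinset.card ≤ 3) :
    alpha true (Multiset.ofList (A.map g1 ++ B.map g0)) =
      ind {0, 1} A * ind {3, 4, 5} B + ind {0, 1, 2} A * ind {4, 5} B := by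
  have hex : ind ({0, 1} : S6) A = 0 ∨ ind ({0, 1, 2} : S6) A = 0 := by
    by_contra hc
    push Not at hc
    have h1 := ind_length hc.1
    have h2 := ind_length hc.2
    rw [h1] at h2
    revert h2; decide
  have hv1 : ind ({0, 1} : S6) A ≠ 0 → ind ({3, 4, 5} : S6) B ≠ 0 →
      alpha true (Multiset.ofList (A.map g1 ++ B.map g0)) = 1 := by
    intro h1 h2
    have h3 : Multiset.ofList (A.map g1 ++ B.map g0) =
        Multiset.ofList [g1 0, g1 1, g0 3, g0 4, g0 5] := by
      rw [← Multiset.coe_add, ← Multiset.map_coe, ← Multiset.map_coe, ind_ne_zero h1,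
        ind_ne_zero h2]
      rfl
    rw [h3, alpha_coe _ _ (by decide)]
    decide
  have hv2 : ind ({0, 1, 2} : S6) A ≠ 0 → ind ({4, 5} : S6) B ≠ 0 →
      alpha true (Multiset.ofList (A.map g1 ++ B.map g0)) = 1 := by
    intro h1 h2
    have h3 : Multiset.ofList (A.map g1 ++ B.map g0) =
        Multiset.ofList [g1 0, g1 1, g1 2, g0 4, g0 5] := by
      rw [← Multiset.coe_add, ← Multiset.map_coe, ← Multiset.map_coe, ind_ne_zero h1,
        ind_ne_zero h2]
      rfl
    rw [h3, alpha_coe _ _ (by decide)]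
    decide
  have hz : ∀ x : Z2, x ≠ 0 → x = 1 := by decide
  by_cases h0 : alpha true (Multiset.ofList (A.map g1 ++ B.map g0)) = 0
  · rw [h0]
    have e1 : ind ({0, 1} : S6) A * ind ({3, 4, 5} : S6) B = 0 := by
      by_contra hc
      rw [hv1 (left_ne_zero_of_mul hc) (right_ne_zero_of_mul hc)] at h0
      exact one_ne_zero h0
    have e2 : ind ({0, 1, 2} : S6) A * ind ({4, 5} : S6) B = 0 := by
      by_contra hc
      rw [hv2 (left_ne_zero_of_mul hc) (right_ne_zero_of_mul hc)] at h0
      exact one_ne_zero h0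
    rw [e1, e2, add_zero]
  · rw [hz _ h0]
    obtain ⟨S, hS1, hS2, hS3⟩ := exists_of_alpha _ (by
      intro x hx y hy hxy
      simp only [List.mem_append, List.mem_map] at hx hy
      rcases hx with ⟨x, hx, rfl⟩ | ⟨x, hx, rfl⟩ <;> rcases hy with ⟨y, hy, rfl⟩ | ⟨y, hy, rfl⟩
      · rw [show x = y from hxy]
      · exact absurd hxy (hd x hx y hy)
      · exact absurd hxy (hd y hy x hx).symm
      · rw [show x = y from hxy]) h0
    have hperm : S.Perm (A.map g1 ++ B.map g0) := Multiset.coe_eq_coe.1 hS1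
    have hl : S.length = 5 := by rw [hperm.length_eq]; simpa using hlen
    have hA' : ((S.filter (fun x => (ofLex x).2 == decide ((ofLex x).1.val % 2 = 0))).map
        (fun x => (ofLex x).1)).Perm A := by
      refine ((hperm.filter _).map _).trans (List.Perm.of_eq ?_)
      rw [List.filter_append, List.filter_eq_self.2 (by simp [g1]),
        List.filter_eq_nil_iff.2 (by simp [g0])]
      simp [g1, Function.comp_def]
    have hB' : ((S.filter (fun x => !((ofLex x).2 == decide ((ofLex x).1.val % 2 = 0)))).map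
        (fun x => (ofLex x).1)).Perm B := by
      refine ((hperm.filter _).map _).trans (List.Perm.of_eq ?_)
      rw [List.filter_append, List.filter_eq_nil_iff.2 (by simp [g1]),
        List.filter_eq_self.2 (by simp [g0])]
      simp [g0, Function.comp_def]
    obtain ⟨a, b, c, d, e, rfl⟩ : ∃ a b c d e, S = [a, b, c, d, e] := by
      match S, hl with
      | [a, b, c, d, e], _ => exact ⟨a, b, c, d, e, rfl⟩
    simp only [List.pairwise_cons, List.mem_cons, forall_eq_or_imp] at hS2
    have h5 := five_lists (ofLex a) (ofLex b) hS2.1.1 (ofLex c) hS2.2.1.1 (ofLex d) hS2.2.2.1.1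
      (ofLex e) hS2.2.2.2.1.1 hS3
    have i1 : ∀ (T : S6) (L : List (Fin 6)) (L' : List (Fin 6)), L'.Perm L →
        (L' : Multiset (Fin 6)) = T.val → ind T L = 1 := by
      intro T L L' h1 h2
      unfold ind
      rw [if_pos (by rw [← h2]; exact Multiset.coe_eq_coe.2 h1.symm)]
    rcases h5 with ⟨h6, h7⟩ | ⟨h6, h7⟩ | h6 | h6
    · have e1 : ind ({0, 1} : S6) A = 1 := i1 _ _ _ ((List.Perm.of_eq h6.symm).trans hA') rfl
      have e2 : ind ({3, 4, 5} : S6) B = 1 := i1 _ _ _ ((List.Perm.of_eq h7.symm).trans hB') rfl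
      rw [e1] at hex
      rw [e1, e2, hex.resolve_left one_ne_zero]; simp
    · have e1 : ind ({0, 1, 2} : S6) A = 1 := i1 _ _ _ ((List.Perm.of_eq h6.symm).trans hA') rfl
      have e2 : ind ({4, 5} : S6) B = 1 := i1 _ _ _ ((List.Perm.of_eq h7.symm).trans hB') rfl
      rw [e1] at hex
      rw [e1, e2, hex.resolve_right one_ne_zero]; simp
    · rw [← List.toFinset_eq_of_perm _ _ hA'] at hA
      exact absurd (h6.trans hA) (by decide)
    · rw [← List.toFinset_eq_of_perm _ _ hB'] at hB
      exact absurd (h6.trans hB) (by decide)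

theorem ind_map {κ κ' : Type*} [DecidableEq κ] [DecidableEq κ'] (f : κ → κ')
    (hf : Function.Injective f) (S : Finset κ) (l : List κ) :
    ind (S.image f) (l.map f) = ind S l := by
  unfold ind
  rw [Finset.image_val_of_injOn hf.injOn, ← Multiset.map_coe]
  simp only [(Multiset.map_injective hf).eq_iff]

theorem toFinset_map' {κ κ' : Type*} [DecidableEq κ] [DecidableEq κ'] (f : κ → κ') (l : List κ) :
    (l.map f).toFinset = l.toFinset.image f := by
  ext x; simp

/-- The data of a fine antipodal 4-cycle with frame labels. -/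
structure FrameData (V : Type*) where
  z : Ch V
  Q : List V → Prop
  τ : V → V
  pos : V → Bool
  ly : V → Fin 6
  ln : V → Fin 6
  lu : V → Fin 6
  Fc : S6 → Prop
  supp : Supp z (fun l => l.length = 5 ∧ Q l)
  cyc : ∀ φ, z (dl φ) = 0
  inv : ∀ φ : Co V, z (fun l => φ (l.map τ)) = z φ
  kf : ∀ Λ : V → Fin 6 ×ₗ Bool, (∀ l, Q l → (∀ v ∈ l, Λ (τ v) = flipL (Λ v)) ∧
      ∀ v ∈ l, ∀ w ∈ l, (ofLex (Λ v)).1 = (ofLex (Λ w)).1 → Λ v = Λ w) →
      z (fun l => alpha true (Multiset.ofList (l.map Λ))) = 1
  tpos : ∀ l, Q l → ∀ v ∈ l, pos (τ v) = !pos v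
  tly : ∀ v, ly (τ v) = lu v
  tlu : ∀ v, lu (τ v) = ly v
  fy : ∀ l, Q l → Fc ((l.filter pos).map ly).toFinset
  fu : ∀ l, Q l → Fc ((l.filter (fun v => !pos v)).map lu).toFinset
  fn : ∀ l, Q l → ∀ v ∈ l, ∀ w ∈ l, pos v = true → pos w = false → Fc (l.map ln).toFinset
  cross : ∀ l, Q l → ∀ v ∈ l, ∀ w ∈ l, pos v = true → pos w = false →
    ∀ a ∈ l, ∀ b ∈ l, ly a ≠ lu b ∧ ly a ≠ ln b ∧ ln a ≠ lu b
  card : ∀ A, Fc A → A.card ≤ 3
  ncompl : ∀ A, Fc A → Fc Aᶜ → False

namespace FrameData

variable {V : Type*} (D : FrameData V)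

def M (A B C : S6) : Z2 :=
  D.z (box D.pos (fun l => ind A (l.map D.ly))
    (cup (fun l => ind B (l.map D.ln)) (fun l => ind C (l.map D.lu))))

theorem mm_eq (A C : S6) (hC : C.Nonempty) :
    mm D.M A C = D.z (box D.pos (fun l => ind A (l.map D.ly)) (fun l => ind C (l.map D.lu))) := by
  unfold mm M
  rw [← ch_sum]
  congr 1
  funext l
  unfold box
  rw [← Finset.mul_sum, cup_unit _ _ _ (by simpa using ind_nil hC)]

theorem mdata : MData D.M where
  zero := by
    intro A B C hA hB hC h
    apply D.supp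
    rintro l ⟨-, hl⟩
    by_contra hc
    have h1 := left_ne_zero_of_mul hc
    obtain ⟨x, y, -, hx, hy, h2, h3⟩ := cup_ne_zero (right_ne_zero_of_mul hc)
    have mA : ∀ a ∈ A, ∃ v ∈ l, D.pos v = true ∧ D.ly v = a := by
      intro a ha
      obtain ⟨v, hv, rfl⟩ := List.mem_map.1 ((ind_mem h1 a).2 ha)
      exact ⟨v, (List.mem_filter.1 hv).1, (List.mem_filter.1 hv).2, rfl⟩
    have mB : ∀ a ∈ B, ∃ v ∈ l, D.pos v = false ∧ D.ln v = a := by
      intro a ha
      obtain ⟨v, hv, rfl⟩ := List.mem_map.1 ((ind_mem h2 a).2 ha)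
      have := List.mem_filter.1 (hx.subset hv)
      exact ⟨v, this.1, by simpa using this.2, rfl⟩
    have mC : ∀ a ∈ C, ∃ v ∈ l, D.pos v = false ∧ D.lu v = a := by
      intro a ha
      obtain ⟨v, hv, rfl⟩ := List.mem_map.1 ((ind_mem h3 a).2 ha)
      have := List.mem_filter.1 (hy.subset hv)
      exact ⟨v, this.1, by simpa using this.2, rfl⟩
    obtain ⟨v, hv, hv', -⟩ := mA _ hA.choose_spec
    obtain ⟨w, hw, hw', -⟩ := mB _ hB.choose_spec
    have hcr := D.cross l hl v hv w hw hv' hw'
    have cA : A.card ≤ 3 := by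
      rw [← ind_toFinset h1]; exact D.card _ (D.fy l hl)
    have cB : B.card ≤ 3 := by
      refine le_trans (Finset.card_le_card ?_) (D.card _ (D.fn l hl v hv w hw hv' hw'))
      intro a ha
      obtain ⟨u, hu, -, rfl⟩ := mB a ha
      exact List.mem_toFinset.2 (List.mem_map_of_mem hu)
    have cC : C.card ≤ 3 := by
      refine le_trans (Finset.card_le_card ?_) (D.card _ (D.fu l hl))
      intro a ha
      obtain ⟨u, hu, hu', rfl⟩ := mC a ha
      exact List.mem_toFinset.2 (List.mem_map_of_mem (List.mem_filter.2 ⟨hu, by simp [hu']⟩))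
    simp only [Finset.not_disjoint_iff] at h
    rcases h with ⟨a, h4, h5⟩ | ⟨a, h4, h5⟩ | ⟨a, h4, h5⟩ | h | h | h
    · obtain ⟨p, hp, -, rfl⟩ := mA a h4
      obtain ⟨q, hq, -, e⟩ := mB _ h5
      exact (hcr p hp q hq).2.1 e.symm
    · obtain ⟨p, hp, -, rfl⟩ := mA a h4
      obtain ⟨q, hq, -, e⟩ := mC _ h5
      exact (hcr p hp q hq).1 e.symm
    · obtain ⟨p, hp, -, rfl⟩ := mB a h4
      obtain ⟨q, hq, -, e⟩ := mC _ h5
      exact (hcr p hp q hq).2.2 e.symm
    all_goals omega
  rel := by
    intro A B C hA hB hC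
    unfold M
    rw [← ch_sum, ← ch_sum, ← ch_sum, ← ch_add, ← ch_add,
      ← D.cyc (box D.pos (fun l => ind A (l.map D.ly))
        (cup (fun l => ind B (l.map D.ln)) (fun l => ind C (l.map D.lu))))]
    congr 1
    funext l
    have e : ∀ (S : S6) (f : V → Fin 6), dl (fun l : List V => ind S (l.map f)) =
        fun l => ∑ g ∈ Sᶜ, ind (insert g S) (l.map f) := by
      intro S f
      funext l
      rw [dl_map, dl_ind]
    rw [dl_box]
    unfold box
    rw [dl_cup, e, e, e, cup_sum_left, cup_sum_right]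
    simp only [List.map_nil, ind_nil hB, ind_nil hC, zero_mul, mul_zero, add_zero]
    rw [← Finset.sum_mul, ← Finset.mul_sum, ← Finset.mul_sum]
    ring
  symm := by
    intro A C hA hC
    rw [D.mm_eq A C hC, D.mm_eq C A hA, ← D.inv]
    apply D.supp.congr
    rintro l ⟨-, hl⟩
    unfold box
    simp only [List.filter_map, List.map_map]
    have h1 : l.filter (D.pos ∘ D.τ) = l.filter (fun v => !D.pos v) :=
      List.filter_congr (fun v hv => D.tpos l hl v hv)
    have h2 : l.filter ((fun v => !D.pos v) ∘ D.τ) = l.filter D.pos :=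
      List.filter_congr (fun v hv => by simp [D.tpos l hl v hv])
    have h3 : D.ly ∘ D.τ = D.lu := funext D.tly
    have h4 : D.lu ∘ D.τ = D.ly := funext D.tlu
    rw [h1, h2, h3, h4, mul_comm]
  kf := by
    intro a b c d e f H
    have hinj : Function.Injective ![a, b, c, d, e, f] := by
      intro i j hij
      unfold D6 at H
      fin_cases i <;> fin_cases j <;> simp at hij ⊢ <;> grind
    let σ : Equiv.Perm (Fin 6) := Equiv.ofBijective _ (Finite.injective_iff_bijective.1 hinj)
    have ka : σ.symm a = 0 := σ.symm_apply_eq.2 rfl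
    have kb : σ.symm b = 1 := σ.symm_apply_eq.2 rfl
    have kc : σ.symm c = 2 := σ.symm_apply_eq.2 rfl
    have kd : σ.symm d = 3 := σ.symm_apply_eq.2 rfl
    have ke : σ.symm e = 4 := σ.symm_apply_eq.2 rfl
    have kf' : σ.symm f = 5 := σ.symm_apply_eq.2 rfl
    let Λ : V → Fin 6 ×ₗ Bool := fun v =>
      if D.pos v then g1 (σ.symm (D.ly v)) else g0 (σ.symm (D.lu v))
    rw [D.mm_eq _ _ (by simp), D.mm_eq _ _ (by simp), ← ch_add, ← D.kf Λ]
    · apply D.supp.congr
      rintro l ⟨hl5, hl⟩
      have hperm : (l.map Λ).Perm (((l.filter D.pos).map (σ.symm ∘ D.ly)).map g1 ++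
          ((l.filter (fun v => !D.pos v)).map (σ.symm ∘ D.lu)).map g0) := by
        refine ((List.filter_append_perm D.pos l).symm.map Λ).trans (List.Perm.of_eq ?_)
        rw [List.map_append, List.map_map, List.map_map]
        congr 1
        · apply List.map_congr_left
          intro v hv
          simp [Λ, (List.mem_filter.1 hv).2]
        · apply List.map_congr_left
          intro v hv
          have := (List.mem_filter.1 hv).2
          simp only [Bool.not_eq_eq_eq_not, Bool.not_true] at this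
          simp [Λ, this]
      rw [Multiset.coe_eq_coe.2 hperm, alpha_split]
      · unfold box
        beta_reduce
        rw [← ind_map σ.symm σ.symm.injective {a, b}, ← ind_map σ.symm σ.symm.injective {d, e, f},
          ← ind_map σ.symm σ.symm.injective {a, b, c}, ← ind_map σ.symm σ.symm.injective {e, f}]
        simp only [Finset.image_insert, Finset.image_singleton,
          ka, kb, kc, kd, ke, kf', List.map_map]
      · rw [List.length_map, List.length_map, ← hl5, ← List.length_append]
        exact (List.filter_append_perm D.pos l).length_eq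
      · intro x hx y hy
        obtain ⟨v, hv, rfl⟩ := List.mem_map.1 hx
        obtain ⟨w, hw, rfl⟩ := List.mem_map.1 hy
        rw [List.mem_filter] at hv hw
        exact σ.symm.injective.ne
          (D.cross l hl v hv.1 w hw.1 hv.2 (by simpa using hw.2) v hv.1 w hw.1).1
      · rw [← List.map_map, toFinset_map']
        exact Finset.card_image_le.trans (D.card _ (D.fy l hl))
      · rw [← List.map_map, toFinset_map']
        exact Finset.card_image_le.trans (D.card _ (D.fu l hl))
    · intro l hl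
      constructor
      · intro v hv
        simp only [Λ, D.tpos l hl v hv, D.tly, D.tlu]
        cases D.pos v <;> simp [flipL, g0, g1]
      · intro v hv w hw
        simp only [Λ]
        cases h1 : D.pos v <;> cases h2 : D.pos w <;> simp only [g0, g1, if_true, if_false,
          Bool.false_eq_true, ofLex_toLex, EmbeddingLike.apply_eq_iff_eq]
        · intro h; rw [h]
        · intro h; exact absurd h.symm (D.cross l hl w hw v hv h2 h1 w hw v hv).1
        · intro h; exact absurd h (D.cross l hl v hv w hw h1 h2 v hv w hw).1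
        · intro h; rw [h]

theorem face_of_al {a b c : Fin 6} (H : a ≠ b ∧ a ≠ c ∧ b ≠ c) (h : al D.M {a, b, c} ≠ 0) :
    D.Fc {a, b, c} := by
  obtain ⟨d, e, f, H6⟩ := exists_D6_of_three H
  rw [← D.mdata.mm_al H6, D.mm_eq _ _ (by simp)] at h
  obtain ⟨l, ⟨-, hl⟩, hne⟩ := D.supp.exists h
  rw [← ind_toFinset (left_ne_zero_of_mul hne)]
  exact D.fy l hl

theorem al_of_face {a b c : Fin 6} (H : a ≠ b ∧ a ≠ c ∧ b ≠ c) (h : D.Fc {a, b, c}) :
    al D.M {a, b, c} = 1 := by
  obtain ⟨d, e, f, H6⟩ := exists_D6_of_three H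
  have h1 := D.mdata.al_compl H6
  have h2 : al D.M {d, e, f} = 0 := by
    by_contra hc
    have h3 := D.face_of_al (by unfold D6 at H6; grind) hc
    apply D.ncompl _ h
    have hall := H6.all
    unfold D6 at H6
    rwa [show ({a, b, c} : S6)ᶜ = {d, e, f} by
      ext x; have := hall x; rw [Finset.mem_compl]; grind]
  rwa [h2, add_zero] at h1

/-- The 1-cochain on colour lists. -/
def psi : Co (Fin 6)
  | [x, y] => ph D.M x y
  | _ => 0

theorem psi_length {l : List (Fin 6)} (h : D.psi l ≠ 0) : l.length = 2 := by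
  match l, h with
  | [_, _], _ => rfl
  | [], h => exact absurd rfl h
  | [_], h => exact absurd rfl h
  | _ :: _ :: _ :: _, h => exact absurd rfl h

theorem dl_psi (l : List (Fin 6)) (h : D.Fc l.toFinset) : dl D.psi l = 0 := by
  by_cases h3 : l.length = 3
  · obtain ⟨x, y, w, rfl⟩ := List.length_eq_three.1 h3
    simp only [dl_cons, dl_nil, psi, add_zero]
    by_cases hxy : x = y
    · subst hxy; rw [ph_self, add_zero, z2_add_self]
    by_cases hxw : x = w
    · subst hxw; rw [ph_self, zero_add, ph_comm, z2_add_self]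
    by_cases hyw : y = w
    · subst hyw; rw [ph_self, zero_add, z2_add_self]
    rw [← add_assoc, D.mdata.ph_three ⟨hxy, hxw, hyw⟩, D.al_of_face ⟨hxy, hxw, hyw⟩ (by simpa using h),
      z2_add_self]
  · rw [← dl_zero l]
    apply dl_congr
    intro x _ hx
    by_contra hc
    have := D.psi_length hc
    omega

theorem ind_pair {d e : Fin 6} (h : d ≠ e) (x y : Fin 6) :
    ind {d, e} [x, y] = if (x = d ∧ y = e) ∨ (x = e ∧ y = d) then 1 else 0 := by
  revert d e x y
  decide +kernel

/-- The capped 2-cycle. -/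
theorem exists_cap : ∃ c : Ch V,
    Supp c (fun l' => l'.length = 3 ∧ ∃ l, D.Q l ∧ l' = l.filter D.pos) ∧ (∀ φ, c (dl φ) = 0) ∧
    ∀ a b d : Fin 6, a ≠ b ∧ a ≠ d ∧ b ≠ d → D.Fc {a, b, d} →
      c (fun l => ind {a, b, d} (l.map D.ly)) = 1 := by
  refine ⟨AddMonoidHom.mk' (fun φ => D.z (box D.pos φ (fun l => D.psi (l.map D.lu)))) (by
    intro φ ψ
    rw [← ch_add]
    congr 1
    funext l
    simp [box, add_mul]), ?_, ?_, ?_⟩
  · intro φ hφ
    apply D.supp
    rintro l ⟨hl5, hl⟩
    by_contra hc
    apply left_ne_zero_of_mul hc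
    apply hφ
    refine ⟨?_, l, hl, rfl⟩
    have h1 := D.psi_length (right_ne_zero_of_mul hc)
    have h2 := (List.filter_append_perm D.pos l).length_eq
    rw [List.length_append] at h2
    rw [List.length_map] at h1
    omega
  · intro φ
    change D.z (box D.pos (dl φ) (fun l => D.psi (l.map D.lu))) = 0
    rw [← D.cyc (box D.pos φ (fun l => D.psi (l.map D.lu)))]
    apply D.supp.congr
    rintro l ⟨-, hl⟩
    rw [dl_box]
    unfold box
    rw [dl_map, D.dl_psi _ (D.fu l hl), mul_zero, add_zero]
  · intro a b c H hF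
    change D.z (box D.pos (fun l => ind {a, b, c} (l.map D.ly))
      (fun l => D.psi (l.map D.lu))) = 1
    obtain ⟨d, e, f, H6⟩ := exists_D6_of_three H
    have m1 := D.mdata.mm_al H6
    have m2 := D.mdata.mm_al (a := a) (b := b) (c := c) (d := e) (e := d) (f := f)
      (by unfold D6 at H6 ⊢; grind)
    have m3 := D.mdata.mm_al (a := a) (b := b) (c := c) (d := f) (e := d) (f := e)
      (by unfold D6 at H6 ⊢; grind)
    rw [D.al_of_face H hF, D.mm_eq _ _ (by simp)] at m1 m2 m3
    have h1 := D.mdata.al_compl H6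
    have h2 := D.mdata.ph_three (a := d) (b := e) (c := f) (by unfold D6 at H6; grind)
    rw [D.al_of_face H hF] at h1
    have hsm : ∀ (r : Z2) (φ : Co V), D.z (fun l => r * φ l) = r * D.z φ := by
      intro r φ
      have : r = 0 ∨ r = 1 := by revert r; decide
      rcases this with rfl | rfl
      · simp only [zero_mul]; exact D.z.map_zero
      · simp only [one_mul]
    have key : D.z (box D.pos (fun l => ind {a, b, c} (l.map D.ly))
        (fun l => D.psi (l.map D.lu))) = ph D.M e f * 1 + ph D.M d f * 1 + ph D.M d e * 1 := by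
      conv_rhs => rw [← m1]; enter [1, 2]; rw [m1, ← m2]
      conv_rhs => enter [2]; rw [m1, ← m3]
      rw [← hsm, ← hsm, ← hsm, ← ch_add, ← ch_add]
      apply D.supp.congr
      rintro l ⟨hl5, hl⟩
      unfold box
      by_cases h0 : ind {a, b, c} ((l.filter D.pos).map D.ly) = 0
      · simp [h0]
      have h3 := ind_length h0
      have h4 := (List.filter_append_perm D.pos l).length_eq
      have h5 : ({a, b, c} : S6).card = 3 := Finset.card_eq_three.2 ⟨a, b, c, H.1, H.2.1, H.2.2, rfl⟩
      rw [List.length_append] at h4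
      rw [List.length_map] at h3
      obtain ⟨v, w, hvw⟩ := List.length_eq_two.1 (show (l.filter (fun v => !D.pos v)).length = 2 by
        omega)
      have hv := List.mem_filter.1 (show v ∈ l.filter (fun v => !D.pos v) by simp [hvw])
      have hw := List.mem_filter.1 (show w ∈ l.filter (fun v => !D.pos v) by simp [hvw])
      have hne : ∀ x ∈ ({a, b, c} : S6), x ≠ D.lu v ∧ x ≠ D.lu w := by
        intro x hx
        obtain ⟨p, hp, rfl⟩ := List.mem_map.1 ((ind_mem h0 x).2 hx)
        rw [List.mem_filter] at hp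
        have := D.cross l hl p hp.1 v hv.1 hp.2 (by simpa using hv.2) p hp.1
        exact ⟨(this v hv.1).1, (this w hw.1).1⟩
      have na := hne a (by simp)
      have nb := hne b (by simp)
      have nc := hne c (by simp)
      have hv' := H6.all (D.lu v)
      have hw' := H6.all (D.lu w)
      unfold D6 at H6
      rw [hvw]
      simp only [List.map_cons, List.map_nil, psi]
      rw [ind_pair (by grind), ind_pair (by grind), ind_pair (by grind)]
      have p1 := ph_comm (M := D.M) e d
      have p2 := ph_comm (M := D.M) f d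
      have p3 := ph_comm (M := D.M) f e
      have p4 := ph_self (M := D.M) d
      have p5 := ph_self (M := D.M) e
      have p6 := ph_self (M := D.M) f
      generalize D.lu v = x at *
      generalize D.lu w = y at *
      have hx : x = d ∨ x = e ∨ x = f := by grind
      have hy : y = d ∨ y = e ∨ y = f := by grind
      have n1 : d ≠ e := by grind
      have n2 : d ≠ f := by grind
      have n3 : e ≠ f := by grind
      rcases hx with rfl | rfl | rfl <;> rcases hy with rfl | rfl | rfl <;>
        simp [n1, n2, n3, n1.symm, n2.symm, n3.symm, p1, p2, p3, p4, p5, p6, mul_comm]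
    rw [key]
    linear_combination h2 + h1

end FrameData

end Crest.Agent.R50
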