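import Crest.Agent.R50.Face
import Crest.Agent.R50.Frame

/-! The hyperplane orthogonal to a point with four colours. -/

namespace Crest.Agent.R50

open scoped RealInnerProductSpace

theorem exists_tie : ∃ t : E5 → Bool, ∀ v, v ≠ 0 → t (-v) = !t v := by
  obtain ⟨lo, -⟩ := exists_wellFoundedLT E5
  refine ⟨fun v => decide (lo.lt v (-v)), fun v hv => ?_⟩
  have hne : v ≠ -v := by
    intro h
    apply hv
    have : (2 : ℝ) • v = 0 := by rw [two_smul]; nth_rewrite 2 [h]; simp
    simpa using this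
  simp only [neg_neg]
  rcases @lt_or_gt_of_ne E5 lo _ _ hne with h | h
  · simp [h, @not_lt_of_gt E5 lo.toPreorder _ _ h]
  · simp [h, @not_lt_of_gt E5 lo.toPreorder _ _ h]

theorem exists_iota (x : E4) (hx : ‖x‖ = 1) : ∃ ι : E3 →ₗᵢ[ℝ] E4, ∀ w, ⟪x, ι w⟫ = 0 := by
  have : Fact (Module.finrank ℝ E4 = 3 + 1) := ⟨by simp⟩
  have hx0 : x ≠ 0 := by intro h; simp [h] at hx
  let b := OrthonormalBasis.fromOrthogonalSpanSingleton (𝕜 := ℝ) 3 hx0
  refine ⟨(Submodule.subtypeₗᵢ _).comp b.repr.symm.toLinearIsometry, fun w => ?_⟩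
  exact Submodule.mem_orthogonal_singleton_iff_inner_right.1 (b.repr.symm w).2

/-- A discrete rotation of the hyperplane `x^⊥` onto the hyperplane `x'^⊥`. -/
theorem exists_rot (x x' u : E4) (hx : ‖x‖ = 1) (hx' : ‖x'‖ = 1) (hu : ‖u‖ = 1)
    (hxu : ⟪x, u⟫ = 0) (η : ℝ) (hη : 0 < η) :
    ∃ (N : ℕ) (R : ℕ → E4 → E4), (∀ w, R 0 w = w) ∧
      (∀ w, ⟪x, w⟫ = 0 → ⟪x', R N w⟫ = 0) ∧
      (∀ j w w', ⟪x, w⟫ = 0 → ⟪x, w'⟫ = 0 → ⟪R j w, R j w'⟫ = ⟪w, w'⟫) ∧
      (∀ j w, ‖w‖ = 1 → ‖R j w - R (j + 1) w‖ ≤ η) := by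
  set a := ⟪x, x'⟫ with ha
  have hxx : ⟪x, x⟫ = 1 := by rw [real_inner_self_eq_norm_sq, hx, one_pow]
  have ha1 : |a| ≤ 1 := by
    have := abs_real_inner_le_norm x x'
    rwa [hx, hx', mul_one] at this
  have hr : ‖x' - a • x‖ ^ 2 = 1 - a ^ 2 := by
    rw [norm_sub_sq_real, inner_smul_right, real_inner_comm, ← ha, norm_smul, hx, hx', mul_one,
      Real.norm_eq_abs, sq_abs]
    ring
  obtain ⟨e, he1, he2, he3⟩ : ∃ e : E4, ‖e‖ = 1 ∧ ⟪x, e⟫ = 0 ∧
      x' = a • x + ‖x' - a • x‖ • e := by
    by_cases h0 : x' - a • x = 0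
    · refine ⟨u, hu, hxu, ?_⟩
      rw [h0, norm_zero, zero_smul, add_zero]
      exact sub_eq_zero.1 h0
    · have h1 : ‖x' - a • x‖ ≠ 0 := norm_ne_zero_iff.2 h0
      refine ⟨‖x' - a • x‖⁻¹ • (x' - a • x), ?_, ?_, ?_⟩
      · rw [norm_smul, norm_inv, norm_norm, inv_mul_cancel₀ h1]
      · rw [inner_smul_right, inner_sub_right, inner_smul_right, hxx, ← ha]; simp
      · rw [smul_smul, mul_inv_cancel₀ h1, one_smul]; abel
  have hee : ⟪e, e⟫ = 1 := by rw [real_inner_self_eq_norm_sq, he1, one_pow]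
  have hex : ⟪e, x⟫ = 0 := by rw [real_inner_comm, he2]
  set α := Real.arccos a
  have hcos : Real.cos α = a := Real.cos_arccos (abs_le.1 ha1).1 (abs_le.1 ha1).2
  have hsin : Real.sin α = ‖x' - a • x‖ := by
    rw [Real.sin_arccos, ← hr, Real.sqrt_sq (norm_nonneg _)]
  obtain ⟨N, hN⟩ := exists_nat_gt (8 / η)
  have hN0 : (0 : ℝ) < N := lt_trans (by positivity) hN
  refine ⟨N, fun j w => w + ⟪w, e⟫ • ((Real.cos (j * α / N) - 1) • e - Real.sin (j * α / N) • x),
    ?_, ?_, ?_, ?_⟩
  · intro w; simp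
  · intro w hw
    have h1 : (N : ℝ) * α / N = α := by field_simp
    beta_reduce
    rw [h1, hcos, hsin]
    generalize ‖x' - a • x‖ = s at he3
    clear_value a
    rw [he3]
    simp only [inner_add_left, inner_add_right, inner_sub_right, inner_smul_left, inner_smul_right,
      hxx, hee, hex, he2, hw, conj_trivial, real_inner_comm w e]
    ring
  · intro j w w' hw hw'
    have h1 := Real.sin_sq_add_cos_sq (j * α / N)
    have hw2 : ⟪w, x⟫ = 0 := by rw [real_inner_comm, hw]
    simp only [inner_add_left, inner_add_right, inner_sub_right, inner_sub_left, inner_smul_left,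
      inner_smul_right, hxx, hee, hex, he2, hw', hw2, conj_trivial, real_inner_comm w' e]
    linear_combination ⟪w, e⟫ * ⟪w', e⟫ * h1
  · intro j w hw
    have h1 : w + ⟪w, e⟫ • ((Real.cos (j * α / N) - 1) • e - Real.sin (j * α / N) • x) -
        (w + ⟪w, e⟫ • ((Real.cos ((j + 1 : ℕ) * α / N) - 1) • e -
          Real.sin ((j + 1 : ℕ) * α / N) • x)) =
        ⟪w, e⟫ • ((Real.cos (j * α / N) - Real.cos ((j + 1 : ℕ) * α / N)) • e -
          (Real.sin (j * α / N) - Real.sin ((j + 1 : ℕ) * α / N)) • x) := by module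
    beta_reduce
    rw [h1, norm_smul]
    have h2 : ‖⟪w, e⟫‖ ≤ 1 := by
      have := abs_real_inner_le_norm w e
      rwa [hw, he1, mul_one] at this
    have h3 : |(j : ℝ) * α / N - (j + 1 : ℕ) * α / N| ≤ 4 / N := by
      have h4 : (j : ℝ) * α / N - (j + 1 : ℕ) * α / N = -(α / N) := by push_cast; ring
      rw [h4, abs_neg, abs_of_nonneg (div_nonneg (Real.arccos_nonneg a) hN0.le)]
      gcongr
      exact (Real.arccos_le_pi a).trans Real.pi_le_four
    have h4 := (Real.abs_cos_sub_cos_le _ _).trans h3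
    have h5 := (Real.abs_sin_sub_sin_le _ _).trans h3
    have h6 : 8 / (N : ℝ) ≤ η := by
      rw [div_le_iff₀ hN0]
      rw [div_lt_iff₀ hη] at hN
      linarith
    refine le_trans (mul_le_of_le_one_left (norm_nonneg _) h2) ((norm_sub_le _ _).trans ?_)
    rw [norm_smul, norm_smul, he1, hx, mul_one, mul_one, Real.norm_eq_abs, Real.norm_eq_abs]
    have : 8 / (N : ℝ) = 4 / N + 4 / N := by ring
    linarith

theorem near_step (p p' p'' : E4) (hp : ‖p‖ = 1) (hp' : ‖p'‖ = 1) (hp'' : ‖p''‖ = 1) {η : ℝ}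
    (h : ‖p' - p''‖ ≤ η) : 1 - ⟪p, p''⟫ ^ 2 ≤ 1 - ⟪p, p'⟫ ^ 2 + 2 * η := by
  have h1 := abs_real_inner_le_norm p p'
  have h2 := abs_real_inner_le_norm p p''
  have h3 := abs_real_inner_le_norm p (p' - p'')
  rw [hp, hp', mul_one] at h1
  rw [hp, hp'', mul_one] at h2
  rw [hp, one_mul, inner_sub_right] at h3
  have h4 : |⟪p, p'⟫ + ⟪p, p''⟫| ≤ 2 := (abs_add_le _ _).trans (by linarith)
  have h5 : |(⟪p, p'⟫ - ⟪p, p''⟫) * (⟪p, p'⟫ + ⟪p, p''⟫)| ≤ η * 2 := by
    rw [abs_mul]
    exact mul_le_mul (h3.trans h) h4 (abs_nonneg _) ((norm_nonneg _).trans h)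
  nlinarith [(abs_le.1 h5).2]

namespace Col

variable (K : Col)

theorem tight (Q : Finset (Fin 10)) (hQ4 : Q.card = 4) (hQ : K.Face Q) :
    ∃ e : Fin 6 → Fin 10, (∀ a, a ∉ Q → ∃ i, e i = a) ∧
      (∀ a b c d f g, D6 a b c d f g → K.Face {e a, e b, e c} ∨ K.Face {e d, e f, e g}) ∧
      (∀ a b c d f g, D6 a b c d f g → ((K.Face {e a, e b, e c} ↔ K.Face {e a, e b, e d}) ↔
        (K.Face {e a, e b, e f} ↔ K.Face {e a, e b, e g}))) ∧
      (∀ a b c, a ≠ b ∧ a ≠ c ∧ b ≠ c → K.Face {e a, e b, e c} →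
        ∃ g ∉ ({e a, e b, e c} : Finset (Fin 10)), K.Face (insert g {e a, e b, e c})) := by
  classical
  obtain ⟨x, hx, hxQ⟩ := id hQ
  obtain ⟨ι, hι⟩ := exists_iota x hx
  obtain ⟨t, ht⟩ := exists_tie
  have hc6 : Qᶜ.card = 6 := by rw [Finset.card_compl, hQ4]; rfl
  let e : Fin 6 → Fin 10 := Qᶜ.orderEmbOfFin hc6
  have he : Function.Injective e := (Qᶜ.orderEmbOfFin hc6).injective
  have hsurj : ∀ a, a ∉ Q → ∃ i, e i = a := by
    intro a ha
    have : a ∈ Set.range e := by
      rw [Finset.range_orderEmbOfFin]; simpa using ha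
    exact this
  have heQ : ∀ i, e i ∉ Q := fun i => Finset.mem_compl.1 (Finset.orderEmbOfFin_mem _ hc6 i)
  let lab : E3 → Fin 6 := fun w => Function.invFun e (K.c (ι w))
  have hlab : ∀ w, ‖w‖ = 1 → e (lab w) = K.c (ι w) := fun w hw =>
    Function.invFun_eq (hsurj _ (K.avoid hx hxQ (by rw [ι.norm_map, hw]) (hι w)))
  set η := min (1 / 240) (K.ε / 640) with hηdef
  have hη0 : 0 < η := lt_min (by norm_num) (by linarith [K.pos])
  have hη1 : η ≤ 1 / 240 := min_le_left _ _
  have hη2 : 640 * η ≤ K.ε := by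
    have : η ≤ K.ε / 640 := min_le_right _ _
    linarith
  obtain ⟨z, hz1, hz2, hz3, hz4⟩ := kyfan (E := E5) 4
    (fun i => if h : i < 5 then EuclideanSpace.single ⟨i, h⟩ 1 else 0) (by
      intro i hi j hj
      simp only [dif_pos (show i < 5 by omega), dif_pos (show j < 5 by omega)]
      rw [EuclideanSpace.inner_single_left]
      simp) η hη0
  let pos : E5 → Bool := fun v => decide (lam v 1 < 0) || (decide (lam v 1 = 0) && t v)
  have hbig : ∀ l : List E5, Fine 4 η l → ∀ v ∈ l, 1 / 5 ≤ ‖v‖ ^ 2 := by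
    intro l hl v hv
    have := (hl.2.1 v hv).2
    norm_num at this ⊢
    exact this
  have hpos1 : ∀ v, pos v = true → lam v 1 ≤ 0 := by
    intro v hv
    simp only [pos, Bool.or_eq_true, decide_eq_true_eq, Bool.and_eq_true] at hv
    rcases hv with h | h
    · exact h.le
    · exact h.1.le
  have hpos0 : ∀ v, pos v = false → 0 ≤ lam v 1 := by
    intro v hv
    simp only [pos, Bool.or_eq_false_iff, decide_eq_false_iff_not, not_lt] at hv
    exact hv.1
  have hface : ∀ L : List E3, (∀ w ∈ L, ‖w‖ = 1) →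
      (∀ w ∈ L, ∀ w' ∈ L, 1 - ⟪w, w'⟫ ^ 2 ≤ K.ε) → K.Face ((L.map lab).toFinset.image e) := by
    intro L h1 h2
    have h3 := K.face_of_list (L.map ι) (by
      intro w hw
      obtain ⟨v, hv, rfl⟩ := List.mem_map.1 hw
      rw [ι.norm_map, h1 v hv]) (by
      intro w hw w' hw'
      obtain ⟨v, hv, rfl⟩ := List.mem_map.1 hw
      obtain ⟨v', hv', rfl⟩ := List.mem_map.1 hw'
      rw [ι.inner_map_map]
      exact h2 v hv v' hv')
    rw [← toFinset_map', List.map_map]
    rw [List.map_map] at h3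
    rwa [List.map_congr_left (f := e ∘ lab) (g := K.c ∘ ι) (fun w hw => hlab w (h1 w hw))]
  have hne : ∀ w w' : E3, ‖w‖ = 1 → ‖w'‖ = 1 → ⟪w, w'⟫ ^ 2 ≤ K.ε → lab w ≠ lab w' := by
    intro w w' h1 h2 h3 h4
    have := K.far (ι w) (ι w') (by rw [ι.norm_map, h1]) (by rw [ι.norm_map, h2])
      (by rw [← hlab w h1, ← hlab w' h2, h4])
    rw [ι.inner_map_map] at this
    linarith
  have hcr : ∀ l : List E5, Fine 4 η l → ∀ v ∈ l, ∀ w ∈ l, pos v = true → pos w = false →
      ∀ a ∈ l, lam a 1 ≤ 8 * η ∧ -(8 * η) ≤ lam a 1 := by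
    intro l hl v hv w hw h1 h2 a ha
    have b1 := lam1_lip a v (hl.2.2 a ha v hv)
    have b2 := lam1_lip w a (hl.2.2 w hw a ha)
    constructor <;> linarith [hpos1 v h1, hpos0 w h2]
  have hyy : ∀ l : List E5, Fine 4 η l → ∀ v ∈ l.filter pos, ∀ w ∈ l.filter pos,
      1 - ⟪bb v 0, bb w 0⟫ ^ 2 ≤ 160 * η := by
    intro l hl v hv w hw
    rw [List.mem_filter] at hv hw
    exact yy_near v w (hbig l hl v hv.1) hη1 (by linarith [hpos1 v hv.2]) (hl.2.2 v hv.1 w hw.1)
  let D : FrameData E5 :=
    { z := z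
      Q := Fine 4 η
      τ := fun v => -v
      pos := pos
      ly := fun v => lab (bb v 0)
      ln := fun v => lab (bb v 1)
      lu := fun v => lab (bb (-v) 0)
      Fc := fun A => K.Face (A.image e)
      supp := hz1
      cyc := hz2
      inv := hz3
      kf := hz4 (Fin 6)
      tpos := by
        intro l hl v hv
        have h0 : v ≠ 0 := by
          intro h
          have := hbig l hl v hv
          rw [h] at this
          norm_num at this
        simp only [pos, lam_neg1, ht v h0]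
        rcases lt_trichotomy (lam v 1) 0 with h | h | h
        · simp [h, h.le, h.ne]
        · simp [h]
        · simp [h, h.le, h.ne']
      tly := fun v => rfl
      tlu := fun v => by simp only [neg_neg]
      fy := by
        intro l hl
        have := hface ((l.filter pos).map (fun v => bb v 0)) (by
          intro w hw
          obtain ⟨v, -, rfl⟩ := List.mem_map.1 hw
          exact bb_norm _ _) (by
          intro w hw w' hw'
          obtain ⟨v, hv, rfl⟩ := List.mem_map.1 hw
          obtain ⟨v', hv', rfl⟩ := List.mem_map.1 hw'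
          linarith [hyy l hl v hv v' hv'])
        rwa [List.map_map] at this
      fu := by
        intro l hl
        have := hface ((l.filter (fun v => !pos v)).map (fun v => bb (-v) 0)) (by
          intro w hw
          obtain ⟨v, -, rfl⟩ := List.mem_map.1 hw
          exact bb_norm _ _) (by
          intro w hw w' hw'
          obtain ⟨v, hv, rfl⟩ := List.mem_map.1 hw
          obtain ⟨v', hv', rfl⟩ := List.mem_map.1 hw'
          rw [List.mem_filter] at hv hv'
          have h1 := yy_near (-v) (-v') (by rw [norm_neg]; exact hbig l hl v hv.1) hη1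
            (by rw [lam_neg1]; linarith [hpos0 v (by simpa using hv.2)])
            (by rw [show -v - -v' = v' - v by abel]; exact hl.2.2 v' hv'.1 v hv.1)
          linarith)
        rwa [List.map_map] at this
      fn := by
        intro l hl v hv w hw h1 h2
        have := hface (l.map (fun v => bb v 1)) (by
          intro w hw
          obtain ⟨v, -, rfl⟩ := List.mem_map.1 hw
          exact bb_norm _ _) (by
          intro p hp p' hp'
          obtain ⟨a, ha, rfl⟩ := List.mem_map.1 hp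
          obtain ⟨b, hb, rfl⟩ := List.mem_map.1 hp'
          obtain ⟨c1, c2⟩ := hcr l hl v hv w hw h1 h2 a ha
          linarith [(cross_est a b (hbig l hl a ha) hη1 c1 c2 (hl.2.2 a ha b hb)).2.2.2])
        rwa [List.map_map] at this
      cross := by
        intro l hl v hv w hw h1 h2 a ha b hb
        obtain ⟨c1, c2⟩ := hcr l hl v hv w hw h1 h2 a ha
        obtain ⟨d1, d2, d3, -⟩ := cross_est a b (hbig l hl a ha) hη1 c1 c2 (hl.2.2 a ha b hb)
        exact ⟨hne _ _ (bb_norm _ _) (bb_norm _ _) (by linarith),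
          hne _ _ (bb_norm _ _) (bb_norm _ _) (by linarith),
          hne _ _ (bb_norm _ _) (bb_norm _ _) (by linarith)⟩
      card := by
        intro A hA
        have h1 := K.two hQ hA
        rw [Finset.card_union_of_disjoint, Finset.card_image_of_injective _ he] at h1
        · omega
        · rw [Finset.disjoint_right]
          intro a ha
          obtain ⟨i, -, rfl⟩ := Finset.mem_image.1 ha
          exact heQ i
      ncompl := by
        intro A hA hA'
        obtain ⟨i, h1, h2, h3⟩ := K.three hQ hA hA'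
        obtain ⟨j, rfl⟩ := hsurj i h1
        by_cases hj : j ∈ A
        · exact h2 (Finset.mem_image_of_mem e hj)
        · exact h3 (Finset.mem_image_of_mem e (Finset.mem_compl.2 hj)) }
  have himg : ∀ a b c : Fin 6, ({a, b, c} : S6).image e = {e a, e b, e c} := by
    intro a b c; simp
  have hiff : ∀ a b c : Fin 6, a ≠ b ∧ a ≠ c ∧ b ≠ c →
      (K.Face {e a, e b, e c} ↔ al D.M {a, b, c} = 1) := by
    intro a b c H
    rw [← himg]
    exact ⟨D.al_of_face H, fun h => D.face_of_al H (by rw [h]; exact one_ne_zero)⟩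
  refine ⟨e, hsurj, ?_, ?_, ?_⟩
  · intro a b c d f g H
    have h1 := D.mdata.al_compl H
    unfold D6 at H
    rw [hiff a b c (by grind), hiff d f g (by grind)]
    revert h1
    generalize al D.M {a, b, c} = p
    generalize al D.M {d, f, g} = q
    revert p q; decide
  · intro a b c d f g H
    have h1 := D.mdata.evlink H
    unfold D6 at H
    rw [hiff a b c (by grind), hiff a b d (by grind), hiff a b f (by grind), hiff a b g (by grind)]
    revert h1
    generalize al D.M {a, b, c} = p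
    generalize al D.M {a, b, d} = q
    generalize al D.M {a, b, f} = r
    generalize al D.M {a, b, g} = s
    revert p q r s; decide
  · intro a b c H hF
    by_contra hcon
    push Not at hcon
    obtain ⟨cp, hc1, hc2, hc3⟩ := D.exists_cap
    have h1 := hc3 a b c H (by change K.Face _; rwa [himg])
    obtain ⟨x', hx', hxS⟩ := hF
    obtain ⟨N, R, hR0, hRN, hRi, hRs⟩ := exists_rot x x' (ι (bb 0 0)) hx hx'
      (by rw [ι.norm_map, bb_norm]) (hι _) η hη0
    have hRn : ∀ j v, ‖R j (ι (bb v 0))‖ = 1 := by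
      intro j v
      have h2 := hRi j _ _ (hι (bb v 0)) (hι (bb v 0))
      rw [ι.inner_map_map, bb_self, real_inner_self_eq_norm_sq] at h2
      nlinarith [norm_nonneg (R j (ι (bb v 0)))]
    have h2 := cycle_telescope cp hc2 (fun j v => R j (ι (bb v 0)))
      (fun L => ind {e a, e b, e c} (L.map K.c)) N
    have h3 : cp (fun l => ind {e a, e b, e c}
        ((l.map (fun v => R 0 (ι (bb v 0)))).map K.c)) = 1 := by
      rw [← h1]
      congr 1
      funext l
      rw [← ind_map e he, himg, List.map_map, List.map_map]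
      congr 1
      apply List.map_congr_left
      intro v _
      simp only [Function.comp, hR0]
      exact (hlab _ (bb_norm _ _)).symm
    have h4 : cp (fun l => ind {e a, e b, e c}
        ((l.map (fun v => R N (ι (bb v 0)))).map K.c)) = 0 := by
      apply hc1
      intro l _
      by_contra hc
      have h5 := (ind_mem hc (e a)).2 (by simp)
      rw [List.map_map] at h5
      obtain ⟨v, -, hv⟩ := List.mem_map.1 h5
      apply K.avoid hx' hxS (hRn N v) (hRN _ (hι _))
      change K.c (R N (ι (bb v 0))) = e a at hv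
      simp [hv]
    rw [h3, h4, Finset.sum_eq_zero] at h2
    · revert h2; decide
    intro j _
    apply hc1
    rintro l' ⟨-, l, hl, rfl⟩
    apply prism_eq_zero
    intro L _ hL
    rw [dl_map K.c (ind {e a, e b, e c}), dl_ind]
    apply Finset.sum_eq_zero
    intro g hg
    by_contra hc
    apply hcon g (Finset.mem_compl.1 hg)
    rw [← ind_toFinset hc]
    have hsame : ∀ i, ∀ v ∈ l.filter pos, ∀ w ∈ l.filter pos,
        1 - ⟪R i (ι (bb v 0)), R i (ι (bb w 0))⟫ ^ 2 ≤ 160 * η := by
      intro i v hv w hw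
      rw [hRi i _ _ (hι _) (hι _), ι.inner_map_map]
      exact hyy l hl v hv w hw
    apply K.face_of_list
    · intro p hp
      obtain ⟨v, -, rfl | rfl⟩ := hL p hp <;> exact hRn _ _
    · intro p hp p' hp'
      obtain ⟨v, hv, rfl | rfl⟩ := hL p hp <;> obtain ⟨w, hw, rfl | rfl⟩ := hL p' hp'
      · linarith [hsame j v hv w hw]
      · have := near_step _ _ _ (hRn j v) (hRn j w) (hRn (j + 1) w)
          (hRs j _ (by rw [ι.norm_map, bb_norm]))
        linarith [hsame j v hv w hw]
      · have := near_step _ _ _ (hRn j w) (hRn j v) (hRn (j + 1) v)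
          (hRs j _ (by rw [ι.norm_map, bb_norm]))
        rw [real_inner_comm]
        linarith [hsame j w hw v hv]
      · linarith [hsame (j + 1) v hv w hw]

end Col

end Crest.Agent.R50
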