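import Crest.Agent.R50.Cert
import Crest.Agent.R50.Tight

/-! The face complex of an even ten-colouring without almost orthogonal pairs does not exist. -/

namespace Crest.Agent.R50

/-- The local rules, for every ordering `π` of the ten colours. -/
structure Rules (F : Finset (Fin 10) → Prop) : Prop where
  r0 : ∀ π : Fin 10 → Fin 10, Function.Injective π → F {π 0, π 1, π 2, π 3} → F {π 0, π 1, π 2}
  r1 : ∀ π : Fin 10 → Fin 10, Function.Injective π → F {π 0, π 1, π 2, π 3} →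
    F {π 4, π 5, π 6} → ¬ F {π 7, π 8, π 9}
  r2 : ∀ π : Fin 10 → Fin 10, Function.Injective π → F {π 0, π 1, π 2, π 3} →
    ¬ F {π 4, π 5, π 6, π 7}
  r3 : ∀ π : Fin 10 → Fin 10, Function.Injective π → F {π 0, π 1, π 2, π 3} →
    F {π 4, π 5, π 6} ∨ F {π 7, π 8, π 9}
  r4 : ∀ π : Fin 10 → Fin 10, Function.Injective π → F {π 0, π 1, π 2, π 3} →
    ((F {π 4, π 5, π 6} ↔ F {π 4, π 5, π 7}) ↔ (F {π 4, π 5, π 8} ↔ F {π 4, π 5, π 9}))
  r6 : ∀ π : Fin 10 → Fin 10, Function.Injective π → F {π 0, π 1, π 2, π 3} →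
    F {π 4, π 5, π 6} → F {π 0, π 4, π 5, π 6} ∨ F {π 1, π 4, π 5, π 6} ∨ F {π 2, π 4, π 5, π 6} ∨
      F {π 3, π 4, π 5, π 6} ∨ F {π 7, π 4, π 5, π 6} ∨ F {π 8, π 4, π 5, π 6} ∨
      F {π 9, π 4, π 5, π 6}

theorem fin10_cases (x : Fin 10) : x = 0 ∨ x = 1 ∨ x = 2 ∨ x = 3 ∨ x = 4 ∨ x = 5 ∨ x = 6 ∨ x = 7 ∨
    x = 8 ∨ x = 9 := by revert x; decide

theorem Col.local (K : Col) (π : Fin 10 → Fin 10) (hπ : Function.Injective π)
    (h : K.Face {π 0, π 1, π 2, π 3}) :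
    (K.Face {π 4, π 5, π 6} ∨ K.Face {π 7, π 8, π 9}) ∧
    ((K.Face {π 4, π 5, π 6} ↔ K.Face {π 4, π 5, π 7}) ↔
      (K.Face {π 4, π 5, π 8} ↔ K.Face {π 4, π 5, π 9})) ∧
    (K.Face {π 4, π 5, π 6} → ∃ g ∉ ({π 4, π 5, π 6} : Finset (Fin 10)),
      K.Face (insert g {π 4, π 5, π 6})) := by
  have hne : ∀ a b : Fin 10, a ≠ b → π a ≠ π b := fun a b hab h => hab (hπ h)
  have hc : ({π 0, π 1, π 2, π 3} : Finset (Fin 10)).card = 4 := by
    rw [Finset.card_eq_four]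
    exact ⟨_, _, _, _, hne _ _ (by decide), hne _ _ (by decide), hne _ _ (by decide),
      hne _ _ (by decide), hne _ _ (by decide), hne _ _ (by decide), rfl⟩
  obtain ⟨e, he, h1, h2, h3⟩ := K.tight _ hc h
  have hx : ∀ a : Fin 10, 4 ≤ a.val → ∃ i, e i = π a := by
    intro a ha
    apply he
    simp only [Finset.mem_insert, Finset.mem_singleton, hπ.eq_iff]
    rintro (rfl | rfl | rfl | rfl) <;> simp at ha
  obtain ⟨i4, e4⟩ := hx 4 (by decide)
  obtain ⟨i5, e5⟩ := hx 5 (by decide)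
  obtain ⟨i6, e6⟩ := hx 6 (by decide)
  obtain ⟨i7, e7⟩ := hx 7 (by decide)
  obtain ⟨i8, e8⟩ := hx 8 (by decide)
  obtain ⟨i9, e9⟩ := hx 9 (by decide)
  have hd : ∀ {i j : Fin 6} {a b : Fin 10}, e i = π a → e j = π b → a ≠ b → i ≠ j := by
    intro i j a b ha hb hab hij
    exact hne a b hab (by rw [← ha, ← hb, hij])
  have D : D6 i4 i5 i6 i7 i8 i9 :=
    ⟨hd e4 e5 (by decide), hd e4 e6 (by decide), hd e4 e7 (by decide), hd e4 e8 (by decide),
      hd e4 e9 (by decide), hd e5 e6 (by decide), hd e5 e7 (by decide), hd e5 e8 (by decide),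
      hd e5 e9 (by decide), hd e6 e7 (by decide), hd e6 e8 (by decide), hd e6 e9 (by decide),
      hd e7 e8 (by decide), hd e7 e9 (by decide), hd e8 e9 (by decide)⟩
  have a1 := h1 _ _ _ _ _ _ D
  have a2 := h2 _ _ _ _ _ _ D
  have a3 := h3 i4 i5 i6 ⟨hd e4 e5 (by decide), hd e4 e6 (by decide), hd e5 e6 (by decide)⟩
  rw [e4, e5, e6] at a1 a2 a3
  rw [e7, e8, e9] at a1 a2
  exact ⟨a1, a2, a3⟩

theorem Col.rules (K : Col) : Rules K.Face where
  r0 π _ h := h.mono (by intro x; simp only [Finset.mem_insert, Finset.mem_singleton]; tauto)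
  r1 π hπ h h1 h2 := by
    obtain ⟨i, a, b, c⟩ := K.three h h1 h2
    obtain ⟨x, rfl⟩ := Finite.injective_iff_surjective.1 hπ i
    simp only [Finset.mem_insert, Finset.mem_singleton, hπ.eq_iff] at a b c
    have := fin10_cases x
    tauto
  r2 π hπ h h1 := by
    have h2 := K.two h h1
    have h3 : ({π 0, π 1, π 2, π 3} ∪ {π 4, π 5, π 6, π 7} : Finset (Fin 10)) =
        ({0, 1, 2, 3, 4, 5, 6, 7} : Finset (Fin 10)).image π := by
      ext x; simp only [Finset.image_insert, Finset.image_singleton, Finset.mem_union,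
        Finset.mem_insert, Finset.mem_singleton]; tauto
    rw [h3, Finset.card_image_of_injective _ hπ] at h2
    exact absurd h2 (by decide)
  r3 π hπ h := (K.local π hπ h).1
  r4 π hπ h := (K.local π hπ h).2.1
  r6 π hπ h h1 := by
    obtain ⟨g, hg, h2⟩ := (K.local π hπ h).2.2 h1
    obtain ⟨x, rfl⟩ := Finite.injective_iff_surjective.1 hπ g
    simp only [Finset.mem_insert, Finset.mem_singleton, hπ.eq_iff] at hg
    rcases fin10_cases x with rfl | rfl | rfl | rfl | rfl | rfl | rfl | rfl | rfl | rfl <;> tauto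

/-- The set of colours coded by a number. -/
def ofMask (ρ : Fin 10 → Fin 10) (m : Nat) : Finset (Fin 10) :=
  (Finset.univ.filter fun i : Fin 10 => m.testBit i = true).image ρ

def bt (a : Fin 10) : Nat := Nat.shiftLeft 1 a

theorem ofMask_m3 (ρ : Fin 10 → Fin 10) (a b c : Fin 10) :
    ofMask ρ (m3 (bt a) (bt b) (bt c)) = {ρ a, ρ b, ρ c} := by
  have : (Finset.univ.filter fun i : Fin 10 => (m3 (bt a) (bt b) (bt c)).testBit i = true) =
      {a, b, c} := by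
    ext x
    simp only [m3, bt, testBit_lor', testBit_one_shift, Fin.val_inj, Finset.mem_filter,
      Finset.mem_univ, true_and, Finset.mem_insert, Finset.mem_singleton]
    tauto
  rw [ofMask, this]; simp

theorem ofMask_m4 (ρ : Fin 10 → Fin 10) (a b c d : Fin 10) :
    ofMask ρ (m4 (bt a) (bt b) (bt c) (bt d)) = {ρ a, ρ b, ρ c, ρ d} := by
  have : (Finset.univ.filter fun i : Fin 10 => (m4 (bt a) (bt b) (bt c) (bt d)).testBit i = true) =
      {a, b, c, d} := by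
    ext x
    simp only [m4, bt, testBit_lor', testBit_one_shift, Fin.val_inj, Finset.mem_filter,
      Finset.mem_univ, true_and, Finset.mem_insert, Finset.mem_singleton]
    tauto
  rw [ofMask, this]; simp

def tau (σ : Nat → Prop) (l : Nat) : Prop := σ (l / 2) ↔ l % 2 = 0

theorem tau_cons (σ : Nat → Prop) (l : Nat) (h : tau σ l) : ¬ tau σ (Nat.xor l 1) := by
  have h1 : Nat.xor l 1 / 2 = l / 2 := by
    change (l ^^^ 1) / 2 = _
    rw [Nat.xor_div_two]; simp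
  have h2 : Nat.xor l 1 % 2 = 0 ↔ ¬ l % 2 = 0 := by
    have := @Nat.xor_mod_two_eq_one l 1
    change (l ^^^ 1) % 2 = 0 ↔ _
    omega
  unfold tau at *
  rw [h1, h2]
  tauto

theorem holds_lor (τ : Nat → Prop) (a b : Nat) :
    Holds τ (Nat.lor a b) ↔ Holds τ a ∨ Holds τ b := by
  simp only [Holds, testBit_lor', or_and_right, exists_or]

theorem holds_ps (σ : Nat → Prop) (m : Nat) : Holds (tau σ) (ps m) ↔ σ m := by
  simp only [Holds, ps, testBit_one_shift, exists_eq_left, tau]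
  change (σ (2 * m / 2) ↔ 2 * m % 2 = 0) ↔ _
  simp

theorem holds_ng (σ : Nat → Prop) (m : Nat) : Holds (tau σ) (ng m) ↔ ¬ σ m := by
  simp only [Holds, ng, testBit_one_shift, exists_eq_left, tau]
  change (σ ((2 * m + 1) / 2) ↔ (2 * m + 1) % 2 = 0) ↔ _
  have h1 : (2 * m + 1) / 2 = m := by omega
  simp [h1]

theorem valid_perm (p : Nat) (h : valid p = true) :
    ∃ π : Fin 10 → Fin 10, Function.Injective π ∧ ∀ i : Fin 10, dg p i = bt (π i) := by
  have h1 := Nat.eq_of_beq_eq_true h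
  let d : Nat → Nat := fun i => Nat.land (Nat.shiftRight p (Nat.mul 4 i)) 15
  have h2 : ∀ l, (1023 : Nat).testBit l = true ↔ ∃ i : Fin 10, l = d i := by
    intro l
    rw [← h1]
    simp only [m3, m4, dg, testBit_lor', testBit_one_shift]
    constructor
    · rintro ((((h | h) | h) | h) | (((h | h) | h) | ((h | h) | h)))
      exacts [⟨0, h⟩, ⟨1, h⟩, ⟨2, h⟩, ⟨3, h⟩, ⟨4, h⟩, ⟨5, h⟩, ⟨6, h⟩, ⟨7, h⟩, ⟨8, h⟩, ⟨9, h⟩]
    · rintro ⟨i, rfl⟩
      rcases fin10_cases i with rfl | rfl | rfl | rfl | rfl | rfl | rfl | rfl | rfl | rfl <;>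
        simp [d]
  have h3 : ∀ l, (1023 : Nat).testBit l = true ↔ l < 10 := by
    intro l
    rw [show (1023 : Nat) = 2 ^ 10 - 1 by norm_num, Nat.testBit_two_pow_sub_one]
    simp
  refine ⟨fun i => ⟨d i, (h3 _).1 ((h2 _).2 ⟨i, rfl⟩)⟩, ?_, fun i => rfl⟩
  rw [Finite.injective_iff_surjective]
  intro a
  obtain ⟨i, hi⟩ := (h2 a).1 ((h3 a).2 a.2)
  exact ⟨i, Fin.ext hi.symm⟩

theorem par4 {a b c d : Prop} (h : (a ↔ b) ↔ (c ↔ d)) : ¬ a ∨ b ∨ c ∨ d := by tauto

theorem par5 {a b c d : Prop} (h : (a ↔ b) ↔ (c ↔ d)) : ¬ a ∨ ¬ b ∨ ¬ c ∨ d := by tauto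

theorem Rules.core {F : Finset (Fin 10) → Prop} (R : Rules F) (ρ : Fin 10 → Fin 10)
    (hρ : Function.Injective ρ) (h1 : F {ρ 0, ρ 1, ρ 2, ρ 3}) (h2 : F {ρ 0, ρ 4, ρ 5, ρ 6}) :
    False := by
  refine refute (τ := tau fun m => F (ofMask ρ m)) (tau_cons _) ?_
  intro t p hp
  obtain ⟨π, hπ, hd⟩ := valid_perm p hp
  have e : orig t p = shape t (bt (π 0)) (bt (π 1)) (bt (π 2)) (bt (π 3)) (bt (π 4)) (bt (π 5))
      (bt (π 6)) (bt (π 7)) (bt (π 8)) (bt (π 9)) := by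
    simp only [← hd]; rfl
  have hi : Function.Injective (ρ ∘ π) := hρ.comp hπ
  have r0 := R.r0 _ hi
  have r1 := R.r1 _ hi
  have r2 := R.r2 _ hi
  have r3 := R.r3 _ hi
  have r4 := R.r4 _ hi
  have r6 := R.r6 _ hi
  simp only [Function.comp] at r0 r1 r2 r3 r4 r6
  have e15 : (15 : Nat) = m4 (bt 0) (bt 1) (bt 2) (bt 3) := by decide
  have e113 : (113 : Nat) = m4 (bt 0) (bt 4) (bt 5) (bt 6) := by decide
  rw [e]
  unfold shape
  split
  all_goals
    simp only [holds_lor, holds_ps, holds_ng, ofMask_m3, ofMask_m4]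
  · exact imp_iff_not_or.1 r0
  · exact imp_iff_not_or.1 fun a => imp_iff_not_or.1 (r1 a)
  · exact imp_iff_not_or.1 r2
  · exact imp_iff_not_or.1 r3
  · exact imp_iff_not_or.1 fun a => par4 (r4 a)
  · exact imp_iff_not_or.1 fun a => par5 (r4 a)
  · exact imp_iff_not_or.1 fun a => imp_iff_not_or.1 (r6 a)
  · rw [e15, ofMask_m4]; exact h1
  · rw [e113, ofMask_m4]; exact h2

theorem Rules.step {F : Finset (Fin 10) → Prop} (R : Rules F) (π : Fin 10 → Fin 10)
    (hπ : Function.Injective π) (h1 : F {π 0, π 1, π 2, π 3}) (h2 : F {π 4, π 5, π 6}) :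
    False := by
  have cg : ∀ {S T : Finset (Fin 10)}, F S → S = T → F T := fun h e => e ▸ h
  have ij : ∀ v : Fin 10 → Fin 10, Function.Injective v → Function.Injective (π ∘ v) :=
    fun v hv => hπ.comp hv
  rcases R.r6 π hπ h1 h2 with h | h | h | h | h | h | h
  · exact R.core π hπ h1 h
  · refine R.core _ (ij ![1, 0, 2, 3, 4, 5, 6, 7, 8, 9] (by decide)) (cg h1 ?_) h
    ext x; simp; tauto
  · refine R.core _ (ij ![2, 1, 0, 3, 4, 5, 6, 7, 8, 9] (by decide)) (cg h1 ?_) h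
    ext x; simp; tauto
  · refine R.core _ (ij ![3, 1, 2, 0, 4, 5, 6, 7, 8, 9] (by decide)) (cg h1 ?_) h
    ext x; simp; tauto
  · exact R.r2 _ (ij ![0, 1, 2, 3, 7, 4, 5, 6, 8, 9] (by decide)) h1 h
  · exact R.r2 _ (ij ![0, 1, 2, 3, 8, 4, 5, 6, 7, 9] (by decide)) h1 h
  · exact R.r2 _ (ij ![0, 1, 2, 3, 9, 4, 5, 6, 8, 7] (by decide)) h1 h

theorem Col.false (K : Col) : False := by
  obtain ⟨Q, hQ, hF⟩ := K.exists_four
  obtain ⟨a, b, c, d, hab, hac, had, hbc, hbd, hcd, rfl⟩ := Finset.card_eq_four.1 hQ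
  obtain ⟨π, hπ⟩ := Equiv.Perm.exists_extending_pair (f := (![0, 1, 2, 3] : Fin 4 → Fin 10))
    (g := ![a, b, c, d]) (by decide) (by
      intro i j h
      fin_cases i <;> fin_cases j <;> simp_all [eq_comm])
  have h0 : π 0 = a := hπ 0
  have h1 : π 1 = b := hπ 1
  have h2 : π 2 = c := hπ 2
  have h3 : π 3 = d := hπ 3
  rw [← h0, ← h1, ← h2, ← h3] at hF
  rcases K.rules.r3 π π.injective hF with h | h
  · exact K.rules.step π π.injective hF h
  · exact K.rules.step (π ∘ ![0, 1, 2, 3, 7, 8, 9, 4, 5, 6]) (π.injective.comp (by decide)) hF h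

end Crest.Agent.R50
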