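import Mathlib

/-! Eigenframes of traceless symmetric 3 × 3 matrices. -/

namespace Crest.Agent.R50

open scoped RealInnerProductSpace

abbrev E3 := EuclideanSpace ℝ (Fin 3)
abbrev E5 := EuclideanSpace ℝ (Fin 5)

/-- The traceless quadratic form with coefficients `v`. -/
def qf (v : E5) (w : E3) : ℝ :=
  v 0 * w 0 ^ 2 + v 1 * w 1 ^ 2 - (v 0 + v 1) * w 2 ^ 2 + 2 * v 2 * w 0 * w 1 +
    2 * v 3 * w 0 * w 2 + 2 * v 4 * w 1 * w 2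

theorem normsq3 (w : E3) : ‖w‖ ^ 2 = w 0 ^ 2 + w 1 ^ 2 + w 2 ^ 2 := by
  rw [EuclideanSpace.real_norm_sq_eq, Fin.sum_univ_three]

theorem inner3 (x y : E3) : ⟪x, y⟫ = x 0 * y 0 + x 1 * y 1 + x 2 * y 2 := by
  simp [PiLp.inner_apply, Fin.sum_univ_three, mul_comm]

theorem exists_frame (v : E5) : ∃ p : OrthonormalBasis (Fin 3) ℝ E3 × (Fin 3 → ℝ),
    p.2 1 ≤ p.2 0 ∧ p.2 2 ≤ p.2 1 ∧ p.2 0 + p.2 1 + p.2 2 = 0 ∧
      ∀ w, qf v w = p.2 0 * ⟪p.1 0, w⟫ ^ 2 + p.2 1 * ⟪p.1 1, w⟫ ^ 2 + p.2 2 * ⟪p.1 2, w⟫ ^ 2 := by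
  let A : Matrix (Fin 3) (Fin 3) ℝ := !![v 0, v 2, v 3; v 2, v 1, v 4; v 3, v 4, -(v 0 + v 1)]
  have hA : A.IsHermitian := by
    ext i j
    fin_cases i <;> fin_cases j <;> simp [A]
  have hT := Matrix.isSymmetric_toEuclideanLin_iff.2 hA
  have hn : Module.finrank ℝ E3 = 3 := by simp
  set b := hT.eigenvectorBasis hn
  set μ := hT.eigenvalues hn
  have hq : ∀ w, qf v w = μ 0 * ⟪b 0, w⟫ ^ 2 + μ 1 * ⟪b 1, w⟫ ^ 2 + μ 2 * ⟪b 2, w⟫ ^ 2 := by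
    intro w
    have h1 : qf v w = ⟪w, A.toEuclideanLin w⟫ := by
      rw [inner3]
      simp [qf, A, Matrix.toLpLin_apply, dotProduct, Fin.sum_univ_three]
      ring
    have h2 : ∀ i, ⟪b i, A.toEuclideanLin w⟫ = μ i * ⟪b i, w⟫ := by
      intro i
      rw [← hT, hT.apply_eigenvectorBasis hn i, inner_smul_left]
      rfl
    rw [h1, ← b.sum_inner_mul_inner, Fin.sum_univ_three, h2, h2, h2, real_inner_comm (b 0) w,
      real_inner_comm (b 1) w, real_inner_comm (b 2) w]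
    ring
  refine ⟨(b, μ), hT.eigenvalues_antitone hn (by decide), hT.eigenvalues_antitone hn (by decide),
    ?_, hq⟩
  have h0 := hq (EuclideanSpace.single 0 1)
  have h1 := hq (EuclideanSpace.single 1 1)
  have h2 := hq (EuclideanSpace.single 2 1)
  have n0 := normsq3 (b 0)
  have n1 := normsq3 (b 1)
  have n2 := normsq3 (b 2)
  rw [b.orthonormal.1] at n0 n1 n2
  simp [qf, inner3] at h0 h1 h2
  simp only
  linear_combination -h0 - h1 - h2 + μ 0 * n0 + μ 1 * n1 + μ 2 * n2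

noncomputable def bb (v : E5) : OrthonormalBasis (Fin 3) ℝ E3 := (exists_frame v).choose.1
noncomputable def lam (v : E5) : Fin 3 → ℝ := (exists_frame v).choose.2

theorem lam10 (v : E5) : lam v 1 ≤ lam v 0 := (exists_frame v).choose_spec.1
theorem lam21 (v : E5) : lam v 2 ≤ lam v 1 := (exists_frame v).choose_spec.2.1
theorem lam_sum (v : E5) : lam v 0 + lam v 1 + lam v 2 = 0 := (exists_frame v).choose_spec.2.2.1
theorem qf_eq (v : E5) (w : E3) : qf v w =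
    lam v 0 * ⟪bb v 0, w⟫ ^ 2 + lam v 1 * ⟪bb v 1, w⟫ ^ 2 + lam v 2 * ⟪bb v 2, w⟫ ^ 2 :=
  (exists_frame v).choose_spec.2.2.2 w

theorem bb_norm (v : E5) (i : Fin 3) : ‖bb v i‖ = 1 := (bb v).orthonormal.1 i

theorem bb_orth (v : E5) {i j : Fin 3} (h : i ≠ j) : ⟪bb v i, bb v j⟫ = 0 :=
  (bb v).orthonormal.2 h

theorem bb_self (v : E5) (i : Fin 3) : ⟪bb v i, bb v i⟫ = 1 := by
  rw [real_inner_self_eq_norm_sq, bb_norm, one_pow]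

theorem parseval (v : E5) (w : E3) :
    ⟪bb v 0, w⟫ ^ 2 + ⟪bb v 1, w⟫ ^ 2 + ⟪bb v 2, w⟫ ^ 2 = ‖w‖ ^ 2 := by
  rw [← (bb v).sum_sq_inner_right, Fin.sum_univ_three]

theorem qf_bb0 (v : E5) : qf v (bb v 0) = lam v 0 := by
  rw [qf_eq, bb_self, bb_orth v (by decide), bb_orth v (by decide)]; ring

theorem qf_bb2 (v : E5) : qf v (bb v 2) = lam v 2 := by
  rw [qf_eq, bb_self, bb_orth v (by decide), bb_orth v (by decide)]; ring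

theorem qf_le (v : E5) (w : E3) : qf v w ≤ lam v 0 * ‖w‖ ^ 2 := by
  rw [qf_eq, ← parseval v w]
  nlinarith [lam10 v, lam21 v, sq_nonneg ⟪bb v 1, w⟫, sq_nonneg ⟪bb v 2, w⟫]

theorem qf_ge (v : E5) (w : E3) : lam v 2 * ‖w‖ ^ 2 ≤ qf v w := by
  rw [qf_eq, ← parseval v w]
  nlinarith [lam10 v, lam21 v, sq_nonneg ⟪bb v 1, w⟫, sq_nonneg ⟪bb v 0, w⟫]

theorem qf_neg (v : E5) (w : E3) : qf (-v) w = -qf v w := by
  simp [qf]; ring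

theorem lam_neg0 (v : E5) : lam (-v) 0 = -lam v 2 := by
  have h1 := qf_ge v (bb (-v) 0)
  have h2 := qf_le (-v) (bb v 2)
  have h3 := qf_bb0 (-v)
  rw [qf_neg] at h2 h3
  rw [bb_norm] at h1 h2
  rw [qf_bb2] at h2
  linarith

theorem lam_neg2 (v : E5) : lam (-v) 2 = -lam v 0 := by
  have := lam_neg0 (-v)
  rw [neg_neg] at this
  linarith

theorem lam_neg1 (v : E5) : lam (-v) 1 = -lam v 1 := by
  linarith [lam_neg0 v, lam_neg2 v, lam_sum v, lam_sum (-v)]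

theorem abs_qf_le (v : E5) (w : E3) (hw : ‖w‖ = 1) : |qf v w| ≤ 4 * ‖v‖ := by
  have h := normsq3 w
  rw [hw] at h
  have hc : ∀ i, |v i| ≤ ‖v‖ := fun i => by
    simpa using PiLp.norm_apply_le v i
  have h0 := abs_le.1 (hc 0)
  have h1 := abs_le.1 (hc 1)
  have h2 := abs_le.1 (hc 2)
  have h3 := abs_le.1 (hc 3)
  have h4 := abs_le.1 (hc 4)
  have key : ∀ a r x y : ℝ, -r ≤ a ∧ a ≤ r → |2 * a * x * y| ≤ r * (x ^ 2 + y ^ 2) := by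
    intro a r x y h
    rw [abs_le]
    constructor <;> nlinarith [mul_nonneg (sub_nonneg.2 h.1) (sq_nonneg (x + y)),
      mul_nonneg (sub_nonneg.2 h.2) (sq_nonneg (x - y)),
      mul_nonneg (sub_nonneg.2 h.1) (sq_nonneg (x - y)),
      mul_nonneg (sub_nonneg.2 h.2) (sq_nonneg (x + y))]
  have k2 := abs_le.1 (key _ _ (w 0) (w 1) h2)
  have k3 := abs_le.1 (key _ _ (w 0) (w 2) h3)
  have k4 := abs_le.1 (key _ _ (w 1) (w 2) h4)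
  have hn := norm_nonneg v
  unfold qf
  rw [abs_le]
  constructor <;> nlinarith [sq_nonneg (w 0), sq_nonneg (w 1), sq_nonneg (w 2),
    mul_nonneg (sub_nonneg.2 h0.1) (sq_nonneg (w 0)), mul_nonneg (sub_nonneg.2 h0.2) (sq_nonneg (w 0)),
    mul_nonneg (sub_nonneg.2 h1.1) (sq_nonneg (w 1)), mul_nonneg (sub_nonneg.2 h1.2) (sq_nonneg (w 1)),
    mul_nonneg (sub_nonneg.2 h0.1) (sq_nonneg (w 2)), mul_nonneg (sub_nonneg.2 h0.2) (sq_nonneg (w 2)),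
    mul_nonneg (sub_nonneg.2 h1.1) (sq_nonneg (w 2)), mul_nonneg (sub_nonneg.2 h1.2) (sq_nonneg (w 2)),
    mul_nonneg hn (sq_nonneg (w 0)), mul_nonneg hn (sq_nonneg (w 1)),
    mul_nonneg hn (sq_nonneg (w 2))]

theorem qf_lip (v v' : E5) (w : E3) (hw : ‖w‖ = 1) {η : ℝ} (h : ‖v - v'‖ ≤ η) :
    qf v' w - 4 * η ≤ qf v w ∧ qf v w ≤ qf v' w + 4 * η := by
  have h1 := abs_le.1 (abs_qf_le (v - v') w hw)
  have h2 : qf (v - v') w = qf v w - qf v' w := by simp [qf]; ring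
  rw [h2] at h1
  constructor <;> linarith [h1.1, h1.2]

theorem lam0_lip (v v' : E5) {η : ℝ} (h : ‖v - v'‖ ≤ η) : lam v' 0 - 4 * η ≤ lam v 0 := by
  have h1 := (qf_lip v v' (bb v' 0) (bb_norm _ _) h).1
  have h2 := qf_le v (bb v' 0)
  rw [bb_norm] at h2
  rw [qf_bb0] at h1
  linarith

theorem lam2_lip (v v' : E5) {η : ℝ} (h : ‖v - v'‖ ≤ η) : lam v 2 ≤ lam v' 2 + 4 * η := by
  have h1 := (qf_lip v v' (bb v' 2) (bb_norm _ _) h).2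
  have h2 := qf_ge v (bb v' 2)
  rw [bb_norm] at h2
  rw [qf_bb2] at h1
  linarith

theorem lam1_lip (v v' : E5) {η : ℝ} (h : ‖v - v'‖ ≤ η) : lam v 1 ≤ lam v' 1 + 8 * η := by
  have h' : ‖v' - v‖ ≤ η := by rwa [norm_sub_rev]
  linarith [lam0_lip v v' h, lam2_lip v' v h', lam_sum v, lam_sum v']

theorem width (v : E5) (h : 1 / 5 ≤ ‖v‖ ^ 2) : 1 / 5 ≤ lam v 0 - lam v 2 := by
  have h0 : 0 ≤ lam v 0 := by linarith [lam10 v, lam21 v, lam_sum v]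
  have h2 : lam v 2 ≤ 0 := by linarith [lam10 v, lam21 v, lam_sum v]
  have hb : ∀ x y z : ℝ, lam v 2 * (x ^ 2 + y ^ 2 + z ^ 2) ≤ qf v !₂[x, y, z] ∧
      qf v !₂[x, y, z] ≤ lam v 0 * (x ^ 2 + y ^ 2 + z ^ 2) := by
    intro x y z
    have a := qf_ge v !₂[x, y, z]
    have b := qf_le v !₂[x, y, z]
    rw [normsq3] at a b
    exact ⟨by simpa using a, by simpa using b⟩
  have a0 := hb 1 0 0
  have a1 := hb 0 1 0
  have a2 := hb 1 1 0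
  have a2' := hb 1 (-1) 0
  have a3 := hb 1 0 1
  have a3' := hb 1 0 (-1)
  have a4 := hb 0 1 1
  have a4' := hb 0 1 (-1)
  simp [qf] at a0 a1 a2 a2' a3 a3' a4 a4'
  rw [EuclideanSpace.real_norm_sq_eq, Fin.sum_univ_five] at h
  set W := lam v 0 - lam v 2
  have hW : 0 ≤ W := by linarith
  have b0 : v 0 ^ 2 ≤ W ^ 2 := sq_le_sq' (by linarith) (by linarith)
  have b1 : v 1 ^ 2 ≤ W ^ 2 := sq_le_sq' (by linarith) (by linarith)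
  have b2 : v 2 ^ 2 ≤ W ^ 2 := sq_le_sq' (by linarith) (by linarith)
  have b3 : v 3 ^ 2 ≤ W ^ 2 := sq_le_sq' (by linarith) (by linarith)
  have b4 : v 4 ^ 2 ≤ W ^ 2 := sq_le_sq' (by linarith) (by linarith)
  by_contra hc
  nlinarith

theorem near_top (v : E5) (hv : 1 / 5 ≤ ‖v‖ ^ 2) {η : ℝ} (hη : η ≤ 1 / 240)
    (h1 : lam v 1 ≤ 8 * η) (w : E3) (hw : ‖w‖ = 1) (hq : lam v 0 - 8 * η ≤ qf v w) :
    1 - ⟪bb v 0, w⟫ ^ 2 ≤ 160 * η := by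
  have hp := parseval v w
  rw [hw] at hp
  rw [qf_eq] at hq
  have hg : 1 / 20 ≤ lam v 0 - lam v 1 := by linarith [width v hv, lam_sum v]
  nlinarith [lam21 v, sq_nonneg ⟪bb v 1, w⟫, sq_nonneg ⟪bb v 2, w⟫,
    mul_nonneg (sub_nonneg.2 (lam21 v)) (sq_nonneg ⟪bb v 2, w⟫),
    mul_nonneg (sub_nonneg.2 hg) (add_nonneg (sq_nonneg ⟪bb v 1, w⟫) (sq_nonneg ⟪bb v 2, w⟫))]

theorem near_bot (v : E5) (hv : 1 / 5 ≤ ‖v‖ ^ 2) {η : ℝ} (hη : η ≤ 1 / 240)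
    (h1 : -(8 * η) ≤ lam v 1) (w : E3) (hw : ‖w‖ = 1) (hq : qf v w ≤ lam v 2 + 8 * η) :
    1 - ⟪bb v 2, w⟫ ^ 2 ≤ 160 * η := by
  have hp := parseval v w
  rw [hw] at hp
  rw [qf_eq] at hq
  have hg : 1 / 20 ≤ lam v 1 - lam v 2 := by linarith [width v hv, lam_sum v]
  nlinarith [lam10 v, sq_nonneg ⟪bb v 1, w⟫, sq_nonneg ⟪bb v 0, w⟫,
    mul_nonneg (sub_nonneg.2 (lam10 v)) (sq_nonneg ⟪bb v 0, w⟫),
    mul_nonneg (sub_nonneg.2 hg) (add_nonneg (sq_nonneg ⟪bb v 1, w⟫) (sq_nonneg ⟪bb v 0, w⟫))]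

theorem yy_near (v v' : E5) (hv : 1 / 5 ≤ ‖v‖ ^ 2) {η : ℝ} (hη : η ≤ 1 / 240)
    (h1 : lam v 1 ≤ 8 * η) (h : ‖v - v'‖ ≤ η) : 1 - ⟪bb v 0, bb v' 0⟫ ^ 2 ≤ 160 * η := by
  apply near_top v hv hη h1 _ (bb_norm _ _)
  have h2 := (qf_lip v v' (bb v' 0) (bb_norm _ _) h).1
  rw [qf_bb0] at h2
  linarith [lam0_lip v' v (η := η) (by rwa [norm_sub_rev])]

theorem bu_near (v v' : E5) (hv : 1 / 5 ≤ ‖v‖ ^ 2) {η : ℝ} (hη : η ≤ 1 / 240)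
    (h1 : -(8 * η) ≤ lam v 1) (h : ‖v - v'‖ ≤ η) : 1 - ⟪bb v 2, bb (-v') 0⟫ ^ 2 ≤ 160 * η := by
  apply near_bot v hv hη h1 _ (bb_norm _ _)
  have h2 := (qf_lip v v' (bb (-v') 0) (bb_norm _ _) h).2
  have h3 := qf_bb0 (-v')
  rw [qf_neg, lam_neg0] at h3
  linarith [lam2_lip v' v (η := η) (by rwa [norm_sub_rev])]

theorem bb2_near (v v' : E5) (hv : 1 / 5 ≤ ‖v‖ ^ 2) {η : ℝ} (hη : η ≤ 1 / 240)
    (h1 : -(8 * η) ≤ lam v 1) (h : ‖v - v'‖ ≤ η) : 1 - ⟪bb v 2, bb v' 2⟫ ^ 2 ≤ 160 * η := by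
  apply near_bot v hv hη h1 _ (bb_norm _ _)
  have h2 := (qf_lip v v' (bb v' 2) (bb_norm _ _) h).2
  rw [qf_bb2] at h2
  linarith [lam2_lip v' v (η := η) (by rwa [norm_sub_rev])]

theorem bessel2 {E : Type*} [NormedAddCommGroup E] [InnerProductSpace ℝ E] (a x w : E)
    (ha : ‖a‖ = 1) (hx : ‖x‖ = 1) (hw : ‖w‖ = 1) (h : ⟪x, w⟫ = 0) :
    ⟪a, w⟫ ^ 2 ≤ 1 - ⟪a, x⟫ ^ 2 := by
  have h1 := sq_nonneg ‖a - ⟪a, x⟫ • x - ⟪a, w⟫ • w‖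
  rw [norm_sub_sq_real, norm_sub_sq_real, inner_sub_left, inner_smul_right, inner_smul_right,
    inner_smul_left, inner_smul_right, h, norm_smul, norm_smul, ha, hx, hw, Real.norm_eq_abs,
    Real.norm_eq_abs, mul_one, mul_one, sq_abs, sq_abs] at h1
  simp only [conj_trivial] at h1
  nlinarith

/-- The frame estimates on a list crossing the hypersurface `λ₁ = 0`. -/
theorem cross_est (a b : E5) (ha : 1 / 5 ≤ ‖a‖ ^ 2) {η : ℝ} (hη : η ≤ 1 / 240)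
    (h1 : lam a 1 ≤ 8 * η) (h2 : -(8 * η) ≤ lam a 1) (h : ‖a - b‖ ≤ η) :
    ⟪bb a 0, bb (-b) 0⟫ ^ 2 ≤ 160 * η ∧ ⟪bb a 0, bb b 1⟫ ^ 2 ≤ 160 * η ∧
      ⟪bb a 1, bb (-b) 0⟫ ^ 2 ≤ 160 * η ∧ 1 - ⟪bb a 1, bb b 1⟫ ^ 2 ≤ 320 * η := by
  have e1 := yy_near a b ha hη h1 h
  have e2 := bu_near a b ha hη h2 h
  have e3 := bb2_near a b ha hη h2 h
  have p1 := parseval a (bb (-b) 0)
  have p2 := parseval a (bb b 1)
  rw [bb_norm] at p1 p2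
  have f1 := bessel2 (bb a 0) (bb b 0) (bb b 1) (bb_norm _ _) (bb_norm _ _) (bb_norm _ _)
    (bb_orth b (by decide))
  have f2 := bessel2 (bb a 2) (bb b 2) (bb b 1) (bb_norm _ _) (bb_norm _ _) (bb_norm _ _)
    (bb_orth b (by decide))
  refine ⟨?_, ?_, ?_, ?_⟩ <;>
    nlinarith [sq_nonneg ⟪bb a 0, bb (-b) 0⟫, sq_nonneg ⟪bb a 1, bb (-b) 0⟫]

end Crest.Agent.R50
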