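import Crest.Agent.R50.KyFan
import Crest.Agent.R50.Spec

/-! Faces of a colouring of the unit sphere of `ℝ⁴` without almost orthogonal pairs. -/

namespace Crest.Agent.R50

open scoped RealInnerProductSpace

abbrev E4 := EuclideanSpace ℝ (Fin 4)

/-- An even colouring by ten colours in which vectors of one colour are far from orthogonal. -/
structure Col where
  c : E4 → Fin 10
  ε : ℝ
  pos : 0 < ε
  even : ∀ x, c (-x) = c x
  far : ∀ x y, ‖x‖ = 1 → ‖y‖ = 1 → c x = c y → ε < ⟪x, y⟫ ^ 2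

namespace Col

variable (K : Col)

/-- A set of colours all of which occur near one line. -/
def Face (S : Finset (Fin 10)) : Prop :=
  ∃ x : E4, ‖x‖ = 1 ∧ ∀ i ∈ S, ∃ x', ‖x'‖ = 1 ∧ K.c x' = i ∧ 1 - ⟪x, x'⟫ ^ 2 ≤ K.ε

theorem Face.mono {K : Col} {S T : Finset (Fin 10)} (h : K.Face T) (hs : S ⊆ T) : K.Face S := by
  obtain ⟨x, hx, h⟩ := h
  exact ⟨x, hx, fun i hi => h i (hs hi)⟩

theorem avoid {S : Finset (Fin 10)} {x : E4} (hx : ‖x‖ = 1)
    (h : ∀ i ∈ S, ∃ x', ‖x'‖ = 1 ∧ K.c x' = i ∧ 1 - ⟪x, x'⟫ ^ 2 ≤ K.ε) {w : E4} (hw : ‖w‖ = 1)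
    (hxw : ⟪x, w⟫ = 0) : K.c w ∉ S := by
  intro hi
  obtain ⟨x', h1, h2, h3⟩ := h _ hi
  have h4 := K.far x' w h1 hw h2
  have h5 := bessel2 x' x w h1 hx hw hxw
  rw [real_inner_comm] at h3
  linarith

theorem face_of_list (L : List E4) (h1 : ∀ x ∈ L, ‖x‖ = 1)
    (h2 : ∀ x ∈ L, ∀ y ∈ L, 1 - ⟪x, y⟫ ^ 2 ≤ K.ε) : K.Face (L.map K.c).toFinset := by
  cases L with
  | nil => exact ⟨EuclideanSpace.single 0 1, by simp, by simp⟩
  | cons x t =>
    refine ⟨x, h1 x (by simp), ?_⟩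
    intro i hi
    obtain ⟨y, hy, rfl⟩ := List.mem_map.1 (List.mem_toFinset.1 hi)
    exact ⟨y, h1 y hy, rfl, h2 x (by simp) y hy⟩

theorem gram_le {E : Type*} [NormedAddCommGroup E] [InnerProductSpace ℝ E] (v w : E) :
    ‖v‖ ^ 2 * ‖w‖ ^ 2 - ⟪v, w⟫ ^ 2 ≤ ‖v‖ ^ 2 * ‖v - w‖ ^ 2 := by
  rw [norm_sub_sq_real]
  nlinarith [sq_nonneg (‖v‖ ^ 2 - ⟪v, w⟫)]

theorem exists_face (U : Submodule ℝ E4) (n : ℕ) (hn3 : n ≤ 3) (hn : n + 1 ≤ Module.finrank ℝ U) :
    ∃ S : Finset (Fin 10), S.card = n + 1 ∧ K.Face S ∧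
      ∀ i ∈ S, ∃ w ∈ U, ‖w‖ = 1 ∧ K.c w = i := by
  classical
  let b := stdOrthonormalBasis ℝ U
  let e : ℕ → U := fun i => if h : i < Module.finrank ℝ U then b ⟨i, h⟩ else 0
  have he : ∀ i ≤ n, ∀ j ≤ n, ⟪e i, e j⟫ = if i = j then (1 : ℝ) else 0 := by
    intro i hi j hj
    have hi' : i < Module.finrank ℝ U := by omega
    have hj' : j < Module.finrank ℝ U := by omega
    simp only [e, dif_pos hi', dif_pos hj']
    rw [orthonormal_iff_ite.1 b.orthonormal]
    simp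
  set η := min 1 (K.ε / 4) with hη
  have hη0 : 0 < η := lt_min one_pos (by linarith [K.pos])
  have hη2 : η ^ 2 ≤ K.ε / 4 := by
    have h1 : η ≤ 1 := min_le_left _ _
    have h2 : η ≤ K.ε / 4 := min_le_right _ _
    nlinarith
  let nv : U → E4 := fun v => ‖v‖⁻¹ • (v : E4)
  let r : Fin 10 → E4 := fun i => if h : ∃ x, ‖x‖ = 1 ∧ K.c x = i then h.choose else 0
  have hr : ∀ x, ‖x‖ = 1 → ‖r (K.c x)‖ = 1 ∧ K.c (r (K.c x)) = K.c x := by
    intro x hx
    have h : ∃ y, ‖y‖ = 1 ∧ K.c y = K.c x := ⟨x, hx, rfl⟩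
    simp only [r, dif_pos h]
    exact h.choose_spec
  have hbig : ∀ l : List U, Fine n η l → ∀ v ∈ l, 1 / 4 ≤ ‖v‖ ^ 2 := by
    intro l hl v hv
    refine le_trans ?_ (hl.2.1 v hv).2
    have : (n : ℝ) ≤ 3 := by exact_mod_cast hn3
    gcongr
    linarith
  have hpos : ∀ v : U, 1 / 4 ≤ ‖v‖ ^ 2 → 0 < ‖v‖ := by
    intro v hv
    rcases (norm_nonneg v).eq_or_lt with h | h
    · rw [← h] at hv; norm_num at hv
    · exact h
  have hnv : ∀ v : U, 1 / 4 ≤ ‖v‖ ^ 2 → ‖nv v‖ = 1 := by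
    intro v hv
    simp only [nv]
    rw [norm_smul, norm_inv, norm_norm, Submodule.coe_norm, inv_mul_cancel₀]
    exact (hpos v hv).ne'
  have hin : ∀ v : U, 1 / 4 ≤ ‖v‖ ^ 2 → K.ε / 4 < ⟪(v : E4), r (K.c (nv v))⟫ ^ 2 := by
    intro v hv
    obtain ⟨a, b⟩ := hr _ (hnv v hv)
    have h1 := K.far _ _ (hnv v hv) a b.symm
    have h2 : ⟪(v : E4), r (K.c (nv v))⟫ = ‖v‖ * ⟪nv v, r (K.c (nv v))⟫ := by
      simp only [nv]
      rw [inner_smul_left, conj_trivial, ← mul_assoc, mul_inv_cancel₀ (hpos v hv).ne', one_mul]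
    rw [h2, mul_pow]
    nlinarith [K.pos]
  let Λ : U → Fin 10 ×ₗ Bool := fun v =>
    toLex (K.c (nv v), decide (0 < ⟪(v : E4), r (K.c (nv v))⟫))
  obtain ⟨l, hl, hcard⟩ := kyfan_exists n e he η hη0 (Fin 10) Λ (by
    intro l hl
    constructor
    · intro v hv
      have h1 : K.c (nv (-v)) = K.c (nv v) := by
        simp only [nv, norm_neg, Submodule.coe_neg, smul_neg, K.even]
      have h2 := hin v (hbig l hl v hv)
      have h3 : ⟪(v : E4), r (K.c (nv v))⟫ ≠ 0 := by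
        intro h; rw [h] at h2; linarith [K.pos]
      simp only [Λ, flipL, h1, ofLex_toLex, Submodule.coe_neg, inner_neg_left]
      congr 2
      rcases lt_or_gt_of_ne h3 with h | h
      · simp [h, h.le]
      · simp [h, h.le]
    · intro v hv w hw h
      simp only [Λ, ofLex_toLex] at h ⊢
      have h2 := hin v (hbig l hl v hv)
      have h3 := hin w (hbig l hl w hw)
      rw [h] at h2 ⊢
      have h4 : |⟪(v : E4), r (K.c (nv w))⟫ - ⟪(w : E4), r (K.c (nv w))⟫| ≤ η := by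
        rw [← inner_sub_left]
        refine (abs_real_inner_le_norm _ _).trans ?_
        rw [(hr _ (hnv w (hbig l hl w hw))).1, mul_one]
        exact hl.2.2 v hv w hw
      have h5 := sq_le_sq' (abs_le.1 h4).1 (abs_le.1 h4).2
      congr 2
      apply Bool.decide_congr
      constructor
      · intro h6
        by_contra h7
        nlinarith
      · intro h6
        by_contra h7
        nlinarith)
  refine ⟨_, hcard, ?_, ?_⟩
  · have := K.face_of_list (l.map nv) (by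
      intro x hx
      obtain ⟨v, hv, rfl⟩ := List.mem_map.1 hx
      exact hnv v (hbig l hl v hv)) (by
      intro x hx y hy
      obtain ⟨v, hv, rfl⟩ := List.mem_map.1 hx
      obtain ⟨w, hw, rfl⟩ := List.mem_map.1 hy
      have a1 := hbig l hl v hv
      have a2 := hbig l hl w hw
      have p1 := hpos v a1
      have p2 := hpos w a2
      have h1 := gram_le v w
      have h2 : ‖v - w‖ ^ 2 ≤ η ^ 2 := pow_le_pow_left₀ (norm_nonneg _) (hl.2.2 v hv w hw) 2
      have h3 : ⟪nv v, nv w⟫ = ⟪v, w⟫ / (‖v‖ * ‖w‖) := by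
        simp only [nv]
        rw [inner_smul_left, inner_smul_right, conj_trivial, Submodule.coe_inner]
        field_simp
      rw [h3, div_pow, one_sub_div (by positivity), div_le_iff₀ (by positivity), mul_pow]
      have h4 : ‖v‖ ^ 2 * ‖v - w‖ ^ 2 ≤ ‖v‖ ^ 2 * (K.ε * ‖w‖ ^ 2) := by
        gcongr
        nlinarith [K.pos]
      nlinarith)
    rwa [List.map_map] at this
  · intro i hi
    obtain ⟨v, hv, rfl⟩ := List.mem_map.1 (List.mem_toFinset.1 hi)
    exact ⟨nv v, U.smul_mem _ v.2, hnv v (hbig l hl v hv), rfl⟩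

theorem finrank_orth (s : Finset E4) :
    4 ≤ s.card + Module.finrank ℝ (Submodule.span ℝ (s : Set E4))ᗮ := by
  have h1 := Submodule.finrank_add_finrank_orthogonal (Submodule.span ℝ (s : Set E4))
  have h2 := finrank_span_finset_le_card (R := ℝ) s
  simp only [finrank_euclideanSpace, Fintype.card_fin] at h1
  unfold Set.finrank at h2
  omega

theorem three {A B C : Finset (Fin 10)} (hA : K.Face A) (hB : K.Face B) (hC : K.Face C) :
    ∃ i, i ∉ A ∧ i ∉ B ∧ i ∉ C := by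
  classical
  obtain ⟨x, hx, hA⟩ := hA
  obtain ⟨y, hy, hB⟩ := hB
  obtain ⟨z, hz, hC⟩ := hC
  have h1 := finrank_orth {x, y, z}
  have h2 : ({x, y, z} : Finset E4).card ≤ 3 := Finset.card_le_three
  obtain ⟨S, hS, -, h⟩ := K.exists_face (Submodule.span ℝ (({x, y, z} : Finset E4) : Set E4))ᗮ 0
    (by omega) (by omega)
  obtain ⟨i, rfl⟩ := Finset.card_eq_one.1 hS
  obtain ⟨w, hw, hw1, rfl⟩ := h i (by simp)
  rw [Submodule.mem_orthogonal] at hw
  exact ⟨_, K.avoid hx hA hw1 (hw _ (Submodule.subset_span (by simp))),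
    K.avoid hy hB hw1 (hw _ (Submodule.subset_span (by simp))),
    K.avoid hz hC hw1 (hw _ (Submodule.subset_span (by simp)))⟩

theorem two {A B : Finset (Fin 10)} (hA : K.Face A) (hB : K.Face B) : (A ∪ B).card ≤ 7 := by
  classical
  obtain ⟨x, hx, hA'⟩ := id hA
  obtain ⟨y, hy, hB'⟩ := id hB
  have h1 := finrank_orth {x, y}
  have h2 : ({x, y} : Finset E4).card ≤ 2 := Finset.card_le_two
  obtain ⟨S, hS, hF, h⟩ := K.exists_face (Submodule.span ℝ (({x, y} : Finset E4) : Set E4))ᗮ 1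
    (by omega) (by omega)
  obtain ⟨i, h3, h4, h5⟩ := K.three hA hB hF
  have h6 : Disjoint (A ∪ B) (insert i S) := by
    rw [Finset.disjoint_right]
    intro j hj
    rcases Finset.mem_insert.1 hj with rfl | hj
    · simp [h3, h4]
    · obtain ⟨w, hw, hw1, rfl⟩ := h j hj
      rw [Submodule.mem_orthogonal] at hw
      simp [K.avoid hx hA' hw1 (hw _ (Submodule.subset_span (by simp))),
        K.avoid hy hB' hw1 (hw _ (Submodule.subset_span (by simp)))]
  have h7 := Finset.card_le_univ ((A ∪ B) ∪ insert i S)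
  rw [Finset.card_union_of_disjoint h6, Finset.card_insert_of_notMem h5, hS,
    Fintype.card_fin] at h7
  omega

theorem exists_four : ∃ Q : Finset (Fin 10), Q.card = 4 ∧ K.Face Q := by
  obtain ⟨S, h1, h2, -⟩ := K.exists_face ⊤ 3 le_rfl (by simp)
  exact ⟨S, h1, h2⟩

end Col

end Crest.Agent.R50
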