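import Crest.Agent.R50.Chain

/-! Fine antipodal cycles on spheres (generalised hemispheres). -/

namespace Crest.Agent.R50

open scoped RealInnerProductSpace

variable {E : Type*} [NormedAddCommGroup E] [InnerProductSpace ℝ E]

/-- Lists of `k+1` points in an annulus, orthogonal to the later basis vectors, close together. -/
def Good (n : ℕ) (e : ℕ → E) (η : ℝ) (k : ℕ) (l : List E) : Prop :=
  l.length = k + 1 ∧
  (∀ v ∈ l, ‖v‖ ≤ 1 ∧ 1 / ((k : ℝ) + 1) ≤ ‖v‖ ^ 2 ∧ ∀ j, k < j → j ≤ n → ⟪v, e j⟫ = 0) ∧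
  ∀ v ∈ l, ∀ w ∈ l, ‖v - w‖ ≤ k * η

theorem Good.neg {n : ℕ} {e : ℕ → E} {η : ℝ} {k : ℕ} {l : List E} (h : Good n e η k l) :
    Good n e η k (l.map (fun v => -v)) := by
  obtain ⟨h1, h2, h3⟩ := h
  refine ⟨by simpa using h1, ?_, ?_⟩
  · intro v hv
    obtain ⟨w, hw, rfl⟩ := List.mem_map.1 hv
    obtain ⟨a, b, c⟩ := h2 w hw
    refine ⟨by simpa using a, by simpa using b, fun j h h' => by simp [c j h h']⟩
  · intro v hv w hw
    obtain ⟨v', hv', rfl⟩ := List.mem_map.1 hv
    obtain ⟨w', hw', rfl⟩ := List.mem_map.1 hw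
    have := h3 w' hw' v' hv'
    rwa [show -v' - -w' = w' - v' by abel]

theorem seg_norm (v p : E) (r t : ℝ) (hr : 0 < r) (hp : ‖p‖ = 1) (hvp : ⟪v, p⟫ = 0)
    (hv : ‖v‖ ≤ 1) (hv' : 1 / r ≤ ‖v‖ ^ 2) (ht0 : 0 ≤ t) (ht1 : t ≤ 1) :
    ‖(1 - t) • v + t • p‖ ≤ 1 ∧ 1 / (r + 1) ≤ ‖(1 - t) • v + t • p‖ ^ 2 := by
  constructor
  · calc ‖(1 - t) • v + t • p‖ ≤ ‖(1 - t) • v‖ + ‖t • p‖ := norm_add_le _ _
      _ = (1 - t) * ‖v‖ + t := by
        rw [norm_smul, norm_smul, hp, Real.norm_of_nonneg (by linarith), Real.norm_of_nonneg ht0,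
          mul_one]
      _ ≤ 1 := by nlinarith
  · have h1 : ‖(1 - t) • v + t • p‖ ^ 2 = (1 - t) ^ 2 * ‖v‖ ^ 2 + t ^ 2 := by
      rw [norm_add_sq_real, inner_smul_left, inner_smul_right, hvp, norm_smul, norm_smul, hp,
        mul_pow, Real.norm_eq_abs, Real.norm_eq_abs, sq_abs, mul_one, sq_abs]
      simp
    rw [h1]
    have h2 : (1 - t) ^ 2 * (1 / r) ≤ (1 - t) ^ 2 * ‖v‖ ^ 2 :=
      mul_le_mul_of_nonneg_left hv' (sq_nonneg _)
    have h3 : 1 / (r + 1) ≤ (1 - t) ^ 2 * (1 / r) + t ^ 2 := by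
      rw [div_le_iff₀ (by linarith), mul_one_div]
      have h4 : ((1 - t) ^ 2 / r + t ^ 2) * (r + 1) - 1 = ((1 - t) - r * t) ^ 2 / r := by
        field_simp
        ring
      have h5 : 0 ≤ ((1 - t) - r * t) ^ 2 / r := by positivity
      linarith
    linarith

theorem fill (n : ℕ) (e : ℕ → E)
    (he : ∀ i ≤ n, ∀ j ≤ n, ⟪e i, e j⟫ = if i = j then (1 : ℝ) else 0) (η : ℝ) (hη : 0 < η)
    (k : ℕ) (hk : k + 1 ≤ n) (z : Ch E) (hz : Supp z (Good n e η k)) (hc : ∀ φ, z (dl φ) = 0) :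
    ∃ b : Ch E, Supp b (Good n e η (k + 1)) ∧ ∀ φ, b (dl φ) = z φ := by
  obtain ⟨N, hN⟩ := exists_nat_gt (2 / η)
  have hN0 : (0 : ℝ) < N := lt_trans (by positivity) hN
  set p := e (k + 1) with hpdef
  have hp : ‖p‖ = 1 := by
    have := he (k + 1) hk (k + 1) hk
    rw [if_pos rfl, real_inner_self_eq_norm_sq] at this
    have h0 := norm_nonneg (e (k + 1))
    nlinarith
  let H : ℕ → E → E := fun j x => (1 - (j : ℝ) / N) • x + ((j : ℝ) / N) • p
  have hH0 : H 0 = id := by funext x; simp [H]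
  have hHN : ∀ x, H N x = p := by intro x; simp [H, div_self hN0.ne']
  let b : Ch E := AddMonoidHom.mk'
    (fun φ => ∑ j ∈ Finset.range N, z (prism (H j) (H (j + 1)) φ) +
      z (fun l => φ (p :: l.map (H N)))) (by
      intro φ ψ
      have h1 : ∀ j, z (prism (H j) (H (j + 1)) (φ + ψ)) =
          z (prism (H j) (H (j + 1)) φ) + z (prism (H j) (H (j + 1)) ψ) := by
        intro j
        rw [← ch_add]
        congr 1
        funext l
        exact prism_add _ _ φ ψ l
      have h2 : z (fun l => (φ + ψ) (p :: l.map (H N))) =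
          z (fun l => φ (p :: l.map (H N))) + z (fun l => ψ (p :: l.map (H N))) := ch_add z _ _
      simp only [h1, h2, Finset.sum_add_distrib]
      ring)
  have hb : ∀ φ, b φ = ∑ j ∈ Finset.range N, z (prism (H j) (H (j + 1)) φ) +
      z (fun l => φ (p :: l.map (H N))) := fun φ => rfl
  -- the points on the segments
  have hpt : ∀ l, Good n e η k l → ∀ v ∈ l, ∀ j ≤ N, ‖H j v‖ ≤ 1 ∧
      1 / (((k + 1 : ℕ) : ℝ) + 1) ≤ ‖H j v‖ ^ 2 ∧
      ∀ i, k + 1 < i → i ≤ n → ⟪H j v, e i⟫ = 0 := by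
    intro l hl v hv j hj
    obtain ⟨a, b', c⟩ := hl.2.1 v hv
    have ht1 : (j : ℝ) / N ≤ 1 := by
      rw [div_le_one hN0]; exact_mod_cast hj
    obtain ⟨d1, d2⟩ := seg_norm v p ((k : ℝ) + 1) ((j : ℝ) / N) (by positivity) hp
      (c (k + 1) (by omega) hk) a b' (by positivity) ht1
    refine ⟨d1, by push_cast; exact d2, ?_⟩
    intro i hi hi'
    simp only [H]
    rw [inner_add_left, inner_smul_left, inner_smul_left, c i (by omega) hi', hpdef,
      he (k + 1) hk i hi', if_neg (by omega)]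
    simp
  have hdist : ∀ l, Good n e η k l → ∀ v ∈ l, ∀ w ∈ l, ∀ i ≤ N, ∀ j ≤ N,
      |(i : ℝ) - j| ≤ 1 → ‖H i v - H j w‖ ≤ ((k + 1 : ℕ) : ℝ) * η := by
    intro l hl v hv w hw i hi j hj hij
    have h1 : H i v - H j w = (1 - (i : ℝ) / N) • (v - w) + (((i : ℝ) - j) / N) • (p - w) := by
      simp only [H]
      rw [sub_div]
      module
    have ht1 : (i : ℝ) / N ≤ 1 := by
      rw [div_le_one hN0]; exact_mod_cast hi
    have ht0 : 0 ≤ (i : ℝ) / N := by positivity
    have h2 := hl.2.2 v hv w hw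
    have h3 : ‖p - w‖ ≤ 2 := by
      have := norm_sub_le p w
      have := (hl.2.1 w hw).1
      linarith
    have h4 : |((i : ℝ) - j) / N| ≤ 1 / N := by
      rw [abs_div, abs_of_pos hN0]
      exact div_le_div_of_nonneg_right hij hN0.le
    have h5 : 2 / (N : ℝ) ≤ η := by
      rw [div_le_iff₀ hN0]
      rw [div_lt_iff₀ hη] at hN
      linarith
    have h6 : 0 ≤ (k : ℝ) * η := by positivity
    rw [h1]
    calc _ ≤ ‖(1 - (i : ℝ) / N) • (v - w)‖ + ‖(((i : ℝ) - j) / N) • (p - w)‖ := norm_add_le _ _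
      _ = (1 - (i : ℝ) / N) * ‖v - w‖ + |((i : ℝ) - j) / N| * ‖p - w‖ := by
        rw [norm_smul, norm_smul, Real.norm_of_nonneg (by linarith), Real.norm_eq_abs]
      _ ≤ 1 * (k * η) + 1 / N * 2 := by
        gcongr
        linarith
      _ ≤ ((k + 1 : ℕ) : ℝ) * η := by
        push_cast
        have : 1 / (N : ℝ) * 2 = 2 / N := by ring
        linarith
  refine ⟨b, ?_, ?_⟩
  · intro φ hφ
    rw [hb, Finset.sum_eq_zero, zero_add]
    · apply hz
      intro l hl
      apply hφ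
      have hne : ∃ v, v ∈ l := by
        cases l with
        | nil => exact absurd hl.1 (by simp)
        | cons v t => exact ⟨v, by simp⟩
      obtain ⟨v0, hv0⟩ := hne
      have hall : ∀ w ∈ p :: l.map (H N), w = H N v0 := by
        intro w hw
        rcases List.mem_cons.1 hw with rfl | hw
        · exact (hHN v0).symm
        · obtain ⟨a, _, rfl⟩ := List.mem_map.1 hw
          rw [hHN, hHN]
      refine ⟨by simp [hl.1], ?_, ?_⟩
      · intro w hw
        rw [hall w hw]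
        exact hpt l hl v0 hv0 N le_rfl
      · intro w hw w' hw'
        rw [hall w hw, hall w' hw', sub_self, norm_zero]
        positivity
    · intro j hj
      have hj' : j + 1 ≤ N := Finset.mem_range.1 hj
      apply hz
      intro l hl
      apply prism_eq_zero
      intro x hx hm
      apply hφ
      refine ⟨by rw [hx, hl.1], ?_, ?_⟩
      · intro w hw
        obtain ⟨v, hv, rfl | rfl⟩ := hm w hw
        · exact hpt l hl v hv j (by omega)
        · exact hpt l hl v hv (j + 1) hj'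
      · intro w hw w' hw'
        obtain ⟨v, hv, rfl | rfl⟩ := hm w hw <;> obtain ⟨v', hv', rfl | rfl⟩ := hm w' hw'
        · exact hdist l hl v hv v' hv' j (by omega) j (by omega) (by simp)
        · exact hdist l hl v hv v' hv' j (by omega) (j + 1) hj' (by simp)
        · exact hdist l hl v hv v' hv' (j + 1) hj' j (by omega) (by simp)
        · exact hdist l hl v hv v' hv' (j + 1) hj' (j + 1) hj' (by simp)
  · intro φ
    rw [hb, ← cycle_telescope z hc H φ N]
    have h1 : (fun l : List E => dl φ (p :: l.map (H N))) = fun l =>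
        φ (l.map (H N)) + dl (fun x => φ (p :: x.map (H N))) l := by
      funext l
      rw [dl_cons, ← dl_map (H N) (fun x => φ (p :: x))]
    rw [h1, ch_add, hc, hH0]
    have e1 := z2_add_self (z (fun l => φ (l.map (H N))))
    simp only [List.map_id]
    linear_combination e1

/-- Nonempty lists of points in the annulus, close together. -/
def Fine (n : ℕ) (η : ℝ) (l : List E) : Prop :=
  l ≠ [] ∧ (∀ v ∈ l, ‖v‖ ≤ 1 ∧ 1 / ((n : ℝ) + 1) ≤ ‖v‖ ^ 2) ∧ ∀ v ∈ l, ∀ w ∈ l, ‖v - w‖ ≤ η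

theorem Good.fine {n : ℕ} {e : ℕ → E} {η : ℝ} (hη : 0 < η) {k : ℕ} (hk : k ≤ n) {l : List E}
    (h : Good n e η k l) : Fine n (n * η) l := by
  have hk' : (k : ℝ) ≤ n := by exact_mod_cast hk
  refine ⟨?_, ?_, ?_⟩
  · rintro rfl
    exact absurd h.1 (by simp)
  · intro v hv
    obtain ⟨a, b, _⟩ := h.2.1 v hv
    refine ⟨a, le_trans ?_ b⟩
    gcongr
  · intro v hv w hw
    refine le_trans (h.2.2 v hv w hw) ?_
    gcongr

theorem hemi_aux (n : ℕ) (e : ℕ → E)
    (he : ∀ i ≤ n, ∀ j ≤ n, ⟪e i, e j⟫ = if i = j then (1 : ℝ) else 0) (η : ℝ) (hη : 0 < η)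
    (k : ℕ) (hk : k ≤ n) :
    ∃ z : Ch E, Supp z (Good n e η k) ∧ (∀ φ, z (dl φ) = 0) ∧
      (∀ φ : Co E, z (fun l => φ (l.map (fun v => -v))) = z φ) ∧
      ∀ a : Co E, a [] = 1 →
        (∀ l, Fine n (n * η) l → dl a l = a l + a (l.map (fun v => -v))) → z a = 1 := by
  induction k with
  | zero =>
    have hg : Good n e η 0 [e 0] := by
      have h0 := he 0 hk 0 hk
      rw [if_pos rfl, real_inner_self_eq_norm_sq] at h0
      refine ⟨rfl, ?_, ?_⟩
      · intro v hv
        rw [List.mem_singleton.1 hv]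
        refine ⟨by nlinarith [norm_nonneg (e 0)], by simp [h0], ?_⟩
        intro j hj hj'
        rw [he 0 hk j hj', if_neg (by omega)]
      · intro v hv w hw
        rw [List.mem_singleton.1 hv, List.mem_singleton.1 hw]
        simp
    refine ⟨AddMonoidHom.mk' (fun φ => φ [e 0] + φ [-e 0]) (by
      intro φ ψ; simp only [Pi.add_apply]; ring), ?_, ?_, ?_, ?_⟩
    · intro φ hφ
      change φ [e 0] + φ [-e 0] = 0
      rw [hφ _ hg, hφ [-e 0] hg.neg, add_zero]
    · intro φ
      change dl φ [e 0] + dl φ [-e 0] = 0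
      simp [dl_cons, z2_add_self]
    · intro φ
      change φ [-e 0] + φ [- -e 0] = φ [e 0] + φ [-e 0]
      rw [neg_neg, add_comm]
    · intro a ha h
      change a [e 0] + a [-e 0] = 1
      have := h [e 0] (hg.fine hη hk)
      simp only [dl_cons, dl_nil, add_zero, List.map_cons, List.map_nil] at this
      rw [← this, ha]
  | succ k ih =>
    obtain ⟨z, hz1, hz2, hz3, hz4⟩ := ih (by omega)
    obtain ⟨b, hb1, hb2⟩ := fill n e he η hη k hk z hz1 hz2
    refine ⟨AddMonoidHom.mk' (fun φ => b φ + b (fun l => φ (l.map (fun v => -v)))) (by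
      intro φ ψ
      have h2 : b (fun l => (φ + ψ) (l.map (fun v => -v))) =
          b (fun l => φ (l.map (fun v => -v))) + b (fun l => ψ (l.map (fun v => -v))) :=
        ch_add b _ _
      simp only [h2, map_add]
      ring), ?_, ?_, ?_, ?_⟩
    · intro φ hφ
      change b φ + b (fun l => φ (l.map (fun v => -v))) = 0
      rw [hb1 φ hφ, hb1 _ (fun l hl => hφ _ hl.neg), add_zero]
    · intro φ
      change b (dl φ) + b (fun l => dl φ (l.map (fun v => -v))) = 0
      have h1 : (fun l : List E => dl φ (l.map (fun v => -v))) =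
          dl (fun l => φ (l.map (fun v => -v))) := by
        funext l; rw [dl_map]
      rw [h1, hb2, hb2, hz3, z2_add_self]
    · intro φ
      change b (fun l => φ (l.map (fun v => -v))) +
        b (fun l => φ ((l.map (fun v => -v)).map (fun v => -v))) =
        b φ + b (fun l => φ (l.map (fun v => -v)))
      have h1 : (fun l : List E => φ ((l.map (fun v => -v)).map (fun v => -v))) = φ := by
        funext l; simp
      rw [h1, add_comm]
    · intro a ha h
      change b a + b (fun l => a (l.map (fun v => -v))) = 1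
      rw [← ch_add, ← hz4 a ha h, ← hb2]
      exact hb1.congr (fun l hl => (h l (hl.fine hη hk)).symm)

/-- A fine antipodal fundamental cycle of the `n`-sphere. -/
theorem hemi (n : ℕ) (e : ℕ → E)
    (he : ∀ i ≤ n, ∀ j ≤ n, ⟪e i, e j⟫ = if i = j then (1 : ℝ) else 0) (η : ℝ) (hη : 0 < η) :
    ∃ z : Ch E, Supp z (fun l => l.length = n + 1 ∧ Fine n η l) ∧ (∀ φ, z (dl φ) = 0) ∧
      (∀ φ : Co E, z (fun l => φ (l.map (fun v => -v))) = z φ) ∧
      ∀ a : Co E, a [] = 1 →
        (∀ l, Fine n η l → dl a l = a l + a (l.map (fun v => -v))) → z a = 1 := by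
  have hη' : 0 < η / (n + 1) := by positivity
  obtain ⟨z, h1, h2, h3, h4⟩ := hemi_aux n e he (η / (n + 1)) hη' n le_rfl
  have hle : (n : ℝ) * (η / (n + 1)) ≤ η := by
    rw [← mul_div_assoc, div_le_iff₀ (by positivity)]
    nlinarith
  have hmono : ∀ l : List E, Fine n (n * (η / (n + 1))) l → Fine n η l := fun l hl =>
    ⟨hl.1, hl.2.1, fun v hv w hw => (hl.2.2 v hv w hw).trans hle⟩
  refine ⟨z, h1.mono (fun l hl => ⟨hl.1, hmono l (hl.fine hη' le_rfl)⟩), h2, h3, ?_⟩
  intro a ha h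
  exact h4 a ha (fun l hl => h l (hmono l hl))

end Crest.Agent.R50
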