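import Crest.Agent.R50.Chain

/-! Indicator cochains of label sets. -/

namespace Crest.Agent.R50

variable {κ : Type*} [DecidableEq κ]

/-- Indicator of the lists that enumerate `S` without repetition. -/
def ind (S : Finset κ) : Co κ := fun l => if (l : Multiset κ) = S.val then 1 else 0

theorem ind_ne_zero {S : Finset κ} {l : List κ} (h : ind S l ≠ 0) :
    (l : Multiset κ) = S.val := by
  by_contra hc
  exact h (if_neg hc)

theorem ind_mem {S : Finset κ} {l : List κ} (h : ind S l ≠ 0) (a : κ) : a ∈ l ↔ a ∈ S := by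
  rw [← Multiset.mem_coe, ind_ne_zero h]; rfl

theorem ind_length {S : Finset κ} {l : List κ} (h : ind S l ≠ 0) : l.length = S.card := by
  rw [← Multiset.coe_card, ind_ne_zero h]; rfl

theorem ind_toFinset {S : Finset κ} {l : List κ} (h : ind S l ≠ 0) : l.toFinset = S := by
  ext a; rw [List.mem_toFinset, ind_mem h]

theorem ind_nil {S : Finset κ} (h : S.Nonempty) : ind S [] = 0 := by
  by_contra hc
  obtain ⟨a, ha⟩ := h
  simpa using (ind_mem hc a).2 ha

theorem dl_ind [Fintype κ] (S : Finset κ) (l : List κ) :
    dl (ind S) l = ∑ g ∈ Sᶜ, ind (insert g S) l := by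
  have h0 := dl_multiset (fun m : Multiset κ => if m = S.val then (1 : Z2) else 0) l
  change dl (ind S) l = _ at h0
  rw [h0]
  unfold ind
  generalize (l : Multiset κ) = s
  have hins : ∀ g ∈ Sᶜ, (insert g S).val = g ::ₘ S.val := fun g hg =>
    Finset.insert_val_of_notMem (Finset.mem_compl.1 hg)
  rw [Finset.sum_congr rfl (fun g hg => by rw [hins g hg])]
  by_cases hs : ∃ g, s = g ::ₘ S.val
  · obtain ⟨g, rfl⟩ := hs
    have h1 : ∀ a ∈ g ::ₘ S.val,
        (if (g ::ₘ S.val).erase a = S.val then (1 : Z2) else 0) = if a = g then 1 else 0 := by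
      intro a ha
      congr 1
      apply propext
      constructor
      · intro h
        have h2 := Multiset.cons_erase ha
        rw [h] at h2
        exact (Multiset.cons_inj_left _).1 h2
      · rintro rfl
        exact Multiset.erase_cons_head _ _
    rw [Multiset.map_congr rfl h1, Multiset.map_cons, Multiset.sum_cons]
    have h2 : (S.val.map (fun a => if a = g then (1 : Z2) else 0)).sum =
        ∑ a ∈ S, if a = g then (1 : Z2) else 0 := rfl
    rw [h2]
    simp only [Multiset.cons_inj_left, Finset.sum_ite_eq', Finset.sum_ite_eq, if_true,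
      Finset.mem_compl]
    by_cases hg : g ∈ S
    · simp [hg, z2_add_self]
    · simp [hg]
  · push Not at hs
    rw [Finset.sum_eq_zero (fun g _ => if_neg (hs g))]
    apply Multiset.sum_eq_zero
    intro x hx
    obtain ⟨a, ha, rfl⟩ := Multiset.mem_map.1 hx
    rw [if_neg]
    intro h
    exact hs a (by rw [← h, Multiset.cons_erase ha])

variable {V : Type*}

theorem ch_sum (I : Ch V) {ι : Type*} (s : Finset ι) (φ : ι → Co V) :
    I (fun l => ∑ i ∈ s, φ i l) = ∑ i ∈ s, I (φ i) := by
  rw [← map_sum]
  congr 1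
  funext l
  simp

theorem cup_sum_left {ι : Type*} (s : Finset ι) (β : ι → Co V) (γ : Co V) (l : List V) :
    cup (fun x => ∑ i ∈ s, β i x) γ l = ∑ i ∈ s, cup (β i) γ l := by
  induction l generalizing β with
  | nil => simp [cup]
  | cons v t ih =>
    simp only [cup]
    rw [ih (fun i x => β i (v :: x)), Finset.sum_add_distrib, Finset.sum_mul]

theorem cup_sum_right {ι : Type*} (s : Finset ι) (β : Co V) (γ : ι → Co V) (l : List V) :
    cup β (fun x => ∑ i ∈ s, γ i x) l = ∑ i ∈ s, cup β (γ i) l := by
  induction l generalizing β with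
  | nil => simp [cup]
  | cons v t ih =>
    simp only [cup]
    rw [ih, Finset.sum_add_distrib, Finset.mul_sum]

theorem cup_ne_zero {β γ : Co V} {l : List V} (h : cup β γ l ≠ 0) :
    ∃ x y : List V, x ≠ [] ∧ x.Sublist l ∧ y.Sublist l ∧ β x ≠ 0 ∧ γ y ≠ 0 := by
  by_contra hc
  apply h
  rw [← cup_zero_left γ l]
  apply cup_congr
  intro x y hx _ hxl hyl _
  rw [zero_mul]
  by_contra hne
  exact hc ⟨x, y, hx, hxl, hyl, left_ne_zero_of_mul hne, right_ne_zero_of_mul hne⟩

theorem cup_unit [Fintype κ] (f : V → κ) (γ : Co V) (l : List V) (h : γ [] = 0) :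
    ∑ d : κ, cup (fun x => ind {d} (x.map f)) γ l = γ l := by
  rw [← cup_sum_left]
  cases l with
  | nil => simp [cup, h]
  | cons v t =>
    simp only [cup]
    have h1 : ∑ d : κ, ind {d} ([v].map f) = 1 := by
      simp [ind, eq_comm]
    have h2 : cup (fun x => ∑ d : κ, ind {d} ((v :: x).map f)) γ t = 0 := by
      rw [← cup_zero_left γ t]
      apply cup_congr
      intro x y hx _ _ _ _
      rw [Finset.sum_eq_zero]
      intro d _
      by_contra hc
      have := ind_length hc
      cases x with
      | nil => exact hx rfl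
      | cons _ _ => simp at this
    rw [h1, h2]; simp

end Crest.Agent.R50
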