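import Mathlib

/-! A small checker for unit-propagation refutations.  A clause is a natural number whose binary
digits are its literals; literal `2 m` says `σ m`, literal `2 m + 1` says `¬ σ m`. -/

namespace Crest.Agent.R50

/-- Search trees of packed clause codes. -/
inductive Tr where
  | leaf (base w c : Nat) : Tr
  | node (p : Nat) (l r : Tr) : Tr

noncomputable def Tr.get (t : Tr) : Nat → Nat :=
  Tr.rec (motive := fun _ => Nat → Nat)
    (fun base w c i => Nat.mod (Nat.shiftRight c (Nat.mul w (Nat.sub i base))) (Nat.shiftLeft 1 w))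
    (fun p _ _ gl gr i => Bool.rec (gr i) (gl i) (Nat.ble i p)) t

noncomputable def dec (fuel : Nat) : Nat → Nat :=
  Nat.rec (motive := fun _ => Nat → Nat) (fun _ => 0)
    (fun _ ih c => Bool.rec (Nat.lor (Nat.shiftLeft 1 (Nat.land c 2047)) (ih (Nat.shiftRight c 11)))
      0 (Nat.beq c 0)) fuel

noncomputable def cl (db : Tr) (i : Nat) : Nat := dec 200 (db.get i)

noncomputable def frc (n : Nat) (f : Nat → Bool) : Bool :=
  Nat.rec (motive := fun _ => Bool) (f 0) (fun m _ => f (Nat.succ m)) n

theorem frc_eq (n : Nat) (f : Nat → Bool) : frc n f = f n := by cases n <;> rfl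

noncomputable def rstep (db : Tr) (n : Nat) (ih : Nat → Nat → Bool) (F h : Nat) : Bool :=
  frc (Nat.land h 16383) fun i =>
    Bool.rec false
      (Bool.rec
        (Bool.rec false
          (ih (Nat.lor F (Nat.shiftLeft 1 (Nat.xor (Nat.land (Nat.shiftRight h 14) 2047) 1)))
            (Nat.shiftRight h 25))
          (Nat.beq (Nat.lor (cl db i) F)
            (Nat.lor F (Nat.shiftLeft 1 (Nat.land (Nat.shiftRight h 14) 2047)))))
        true
        (Nat.beq (Nat.lor (cl db i) F) F))
      (Nat.ble (Nat.succ i) n)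

noncomputable def rup (db : Tr) (n fuel : Nat) : Nat → Nat → Bool :=
  Nat.rec (motive := fun _ => Nat → Nat → Bool) (fun _ _ => false)
    (fun _ ih => rstep db n ih) fuel

def Holds (τ : Nat → Prop) (c : Nat) : Prop := ∃ l, c.testBit l = true ∧ τ l

theorem testBit_one_shift (a l : Nat) : (Nat.shiftLeft 1 a).testBit l = true ↔ l = a := by
  change (1 <<< a).testBit l = true ↔ _
  rw [Nat.one_shiftLeft, Nat.testBit_two_pow]
  simp [eq_comm]

theorem testBit_lor' (a b l : Nat) :
    (Nat.lor a b).testBit l = true ↔ a.testBit l = true ∨ b.testBit l = true := by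
  change (a ||| b).testBit l = true ↔ _
  simp

theorem rup_sound {τ : Nat → Prop} (hτ : ∀ l, τ l → ¬ τ (Nat.xor l 1)) (db : Tr) (n : Nat)
    (hdb : ∀ i < n, Holds τ (cl db i)) (fuel : Nat) :
    ∀ F h, rup db n fuel F h = true → Holds τ F := by
  induction fuel with
  | zero => intro F h H; exact absurd H (by simp [rup])
  | succ k ih =>
    intro F h H
    have H' : rstep db n (rup db n k) F h = true := H
    unfold rstep at H'
    rw [frc_eq] at H'
    generalize Nat.land h 16383 = i at H'
    generalize Nat.land (Nat.shiftRight h 14) 2047 = u at H'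
    cases h1 : Nat.ble (Nat.succ i) n with
    | false => rw [h1] at H'; exact absurd H' (by simp)
    | true =>
      rw [h1] at H'
      obtain ⟨l, hl, hl'⟩ := hdb i (Nat.le_of_ble_eq_true h1)
      have hl2 : (Nat.lor (cl db i) F).testBit l = true := (testBit_lor' _ _ _).2 (Or.inl hl)
      cases h2 : Nat.beq (Nat.lor (cl db i) F) F with
      | true =>
        rw [Nat.eq_of_beq_eq_true h2] at hl2
        exact ⟨l, hl2, hl'⟩
      | false =>
        rw [h2] at H'
        cases h3 : Nat.beq (Nat.lor (cl db i) F) (Nat.lor F (Nat.shiftLeft 1 u)) with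
        | false => rw [h3] at H'; exact absurd H' (by simp)
        | true =>
          rw [h3] at H'
          rw [Nat.eq_of_beq_eq_true h3, testBit_lor', testBit_one_shift] at hl2
          rcases hl2 with hl2 | rfl
          · exact ⟨l, hl2, hl'⟩
          · obtain ⟨l', a, b⟩ := ih _ _ H'
            rw [testBit_lor', testBit_one_shift] at a
            rcases a with a | rfl
            · exact ⟨l', a, b⟩
            · exact absurd b (hτ l hl')

/-- Digit `i` of a permutation code, as a one-element set. -/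
def dg (p i : Nat) : Nat := Nat.shiftLeft 1 (Nat.land (Nat.shiftRight p (Nat.mul 4 i)) 15)

def m3 (a b c : Nat) : Nat := Nat.lor (Nat.lor a b) c
def m4 (a b c d : Nat) : Nat := Nat.lor (Nat.lor (Nat.lor a b) c) d
def ps (m : Nat) : Nat := Nat.shiftLeft 1 (Nat.mul 2 m)
def ng (m : Nat) : Nat := Nat.shiftLeft 1 (Nat.succ (Nat.mul 2 m))

def shape (t a b c d e f g h i j : Nat) : Nat :=
  match t with
  | 0 => Nat.lor (ng (m4 a b c d)) (ps (m3 a b c))
  | 1 => Nat.lor (ng (m4 a b c d)) (Nat.lor (ng (m3 e f g)) (ng (m3 h i j)))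
  | 2 => Nat.lor (ng (m4 a b c d)) (ng (m4 e f g h))
  | 3 => Nat.lor (ng (m4 a b c d)) (Nat.lor (ps (m3 e f g)) (ps (m3 h i j)))
  | 4 => Nat.lor (ng (m4 a b c d)) (Nat.lor (ng (m3 e f g)) (Nat.lor (ps (m3 e f h))
      (Nat.lor (ps (m3 e f i)) (ps (m3 e f j)))))
  | 5 => Nat.lor (ng (m4 a b c d)) (Nat.lor (ng (m3 e f g)) (Nat.lor (ng (m3 e f h))
      (Nat.lor (ng (m3 e f i)) (ps (m3 e f j)))))
  | 6 => Nat.lor (ng (m4 a b c d)) (Nat.lor (ng (m3 e f g)) (Nat.lor (ps (m4 a e f g))
      (Nat.lor (ps (m4 b e f g)) (Nat.lor (ps (m4 c e f g)) (Nat.lor (ps (m4 d e f g))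
      (Nat.lor (ps (m4 h e f g)) (Nat.lor (ps (m4 i e f g)) (ps (m4 j e f g)))))))))
  | 7 => ps 15
  | _ => ps 113

def orig (t p : Nat) : Nat :=
  shape t (dg p 0) (dg p 1) (dg p 2) (dg p 3) (dg p 4) (dg p 5) (dg p 6) (dg p 7) (dg p 8) (dg p 9)

def valid (p : Nat) : Bool :=
  Nat.beq (Nat.lor (m4 (dg p 0) (dg p 1) (dg p 2) (dg p 3))
    (Nat.lor (m3 (dg p 4) (dg p 5) (dg p 6)) (m3 (dg p 7) (dg p 8) (dg p 9)))) 1023

noncomputable def ok (db : Tr) (n j : Nat) : Bool :=
  Bool.rec
    (and (valid (Nat.shiftRight j 5))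
      (Nat.beq (cl db n) (orig (Nat.land (Nat.shiftRight j 1) 15) (Nat.shiftRight j 5))))
    (rup db n 2000 (cl db n) (Nat.shiftRight j 1))
    (Nat.beq (Nat.land j 1) 0)

noncomputable def chk (db : Tr) (js : List Nat) : Nat → Bool :=
  List.rec (motive := fun _ => Nat → Bool) (fun _ => true)
    (fun j _ ih n => and (ok db n j) (frc n fun n => ih (Nat.succ n))) js

theorem ok_sound {τ : Nat → Prop} (hτ : ∀ l, τ l → ¬ τ (Nat.xor l 1))
    (ho : ∀ t p, valid p = true → Holds τ (orig t p)) (db : Tr) (n j : Nat)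
    (hdb : ∀ i < n, Holds τ (cl db i)) (h : ok db n j = true) : Holds τ (cl db n) := by
  unfold ok at h
  cases h1 : Nat.beq (Nat.land j 1) 0 with
  | true => rw [h1] at h; exact rup_sound hτ db n hdb _ _ _ h
  | false =>
    rw [h1] at h
    have h' := Bool.and_eq_true_iff.1 h
    rw [Nat.eq_of_beq_eq_true h'.2]
    exact ho _ _ h'.1

theorem chk_sound {τ : Nat → Prop} (hτ : ∀ l, τ l → ¬ τ (Nat.xor l 1))
    (ho : ∀ t p, valid p = true → Holds τ (orig t p)) (db : Tr) (js : List Nat) :
    ∀ n, chk db js n = true → (∀ i < n, Holds τ (cl db i)) →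
      ∀ i < n + js.length, Holds τ (cl db i) := by
  induction js with
  | nil => intro n _ h; simpa using h
  | cons j js ih =>
    intro n H h
    have H' : (ok db n j && frc n fun n => chk db js (Nat.succ n)) = true := H
    rw [frc_eq] at H'
    have h' := Bool.and_eq_true_iff.1 H'
    have h1 := ok_sound hτ ho db n j h h'.1
    have := ih (n + 1) h'.2 (by
      intro i hi
      rcases Nat.lt_succ_iff_lt_or_eq.1 hi with hi | rfl
      · exact h i hi
      · exact h1)
    intro i hi
    exact this i (by simp at hi; omega)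

end Crest.Agent.R50
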